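import Mathlib.Analysis.Calculus.Gradient.Basic
import Mathlib.Analysis.SpecialFunctions.SmoothTransition
import Mathlib.Geometry.Euclidean.Volume.Measure
import Vale.Agent.Lib.P219.Geo.Metric

/-!
# P219: classical area and volume of a domain with smooth boundary in a Riemannian metric on `ℝ^n`

`μHE[d]` is Mathlib's `d`-dimensional Hausdorff measure, normalised to agree with Lebesgue
measure on `d`-dimensional Euclidean spaces.
-/

open scoped ContDiff
open MeasureTheory
open Vale.Agent.Lib.P219 (Ev)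

namespace P219G

noncomputable section

variable {n : ℕ}

/-- Gram matrix of the metric `g` at `x` in the standard basis. -/
def gram (g : Ev n → Ev n →L[ℝ] Ev n →L[ℝ] ℝ) (x : Ev n) : Matrix (Fin n) (Fin n) ℝ :=
  Matrix.of fun i j => g x (EuclideanSpace.single i 1) (EuclideanSpace.single j 1)

/-- Density of the Riemannian volume: `√det g`. -/
def volDens (g : Ev n → Ev n →L[ℝ] Ev n →L[ℝ] ℝ) (x : Ev n) : ℝ := Real.sqrt (gram g x).det

/-- The Riemannian volume measure. -/
def riemVol (g : Ev n → Ev n →L[ℝ] Ev n →L[ℝ] ℝ) : Measure (Ev n) :=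
  volume.withDensity fun x => ENNReal.ofReal (volDens g x)

/-- Length of the covector `v ↦ ⟪a, v⟫` for the metric `g x`: `√(aᵀ g⁻¹ a)`. -/
def coNorm (g : Ev n → Ev n →L[ℝ] Ev n →L[ℝ] ℝ) (x a : Ev n) : ℝ :=
  Real.sqrt (a.ofLp ⬝ᵥ ((gram g x)⁻¹).mulVec a.ofLp)

/-- Euclidean unit normal of the level sets of `ρ`. -/
def unitNormal (ρ : Ev n → ℝ) (x : Ev n) : Ev n := (‖gradient ρ x‖)⁻¹ • gradient ρ x

/-- `ρ` is a smooth defining function of the bounded open set `{ρ < 0}` with smooth boundary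
`{ρ = 0}`. -/
structure IsDefiningFunction (ρ : Ev n → ℝ) : Prop where
  smooth : ContDiff ℝ ∞ ρ
  bounded : Bornology.IsBounded {x | ρ x < 0}
  regular : ∀ x, ρ x = 0 → fderiv ℝ ρ x ≠ 0

/-- The `(n-1)`-dimensional Riemannian measure of the hypersurface `{ρ = 0}`: the area element of
`g` is `√det g · |N|_{g⁻¹} dH^{n-1}` with `N` the Euclidean unit normal. -/
def area (g : Ev n → Ev n →L[ℝ] Ev n →L[ℝ] ℝ) (ρ : Ev n → ℝ) : ENNReal :=
  ∫⁻ x in {x | ρ x = 0}, ENNReal.ofReal (volDens g x * coNorm g x (unitNormal ρ x))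
    ∂(Measure.euclideanHausdorffMeasure (n - 1))

/-- Euclidean divergence of a vector field. -/
def dv (W : Ev n → Ev n) (x : Ev n) : ℝ :=
  ∑ i : Fin n, (fderiv ℝ W x (EuclideanSpace.single i 1)) i

/-- A smooth step function: `1` for `s ≤ -1`, `0` for `s ≥ 0`, nonincreasing. -/
def cut (s : ℝ) : ℝ := Real.smoothTransition (-s)

/-- The weight `-(cut (s/ε))'`, of total mass one, supported in `[-ε, 0]`. -/
def wt (ε s : ℝ) : ℝ := -(deriv cut (s / ε)) / ε

end

end P219G
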