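import Mathlib.Algebra.Order.Star.Real
import Mathlib.Analysis.Calculus.LineDeriv.IntegrationByParts
import Vale.Agent.Lib.P219.Bd.Defs

/-!
# P219: smooth layers and the divergence theorem, first form
-/

open scoped ContDiff
open MeasureTheory Filter Topology Set
open Vale.Agent.Lib.P219 (Ev)

namespace P219G

variable {n : ℕ}

theorem cut_contDiff : ContDiff ℝ ∞ cut :=
  Real.smoothTransition.contDiff.comp contDiff_neg

private theorem Cut_anti : Antitone cut := fun _ _ h =>
  Real.smoothTransition.monotone (neg_le_neg h)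

private theorem Cut_nonneg (s : ℝ) : 0 ≤ cut s := Real.smoothTransition.nonneg _

private theorem Cut_le_one (s : ℝ) : cut s ≤ 1 := Real.smoothTransition.le_one _

private theorem Cut_one {s : ℝ} (h : s ≤ -1) : cut s = 1 :=
  Real.smoothTransition.one_of_one_le (by linarith)

private theorem Cut_zero {s : ℝ} (h : 0 ≤ s) : cut s = 0 :=
  Real.smoothTransition.zero_of_nonpos (by linarith)

private theorem Cut_cd : Continuous (deriv cut) :=
  cut_contDiff.continuous_deriv (by simp)

private theorem Cut_diff (s : ℝ) : HasDerivAt cut (deriv cut s) s :=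
  (cut_contDiff.differentiable (by simp) s).hasDerivAt

private theorem Cut_deriv_zero {s : ℝ} (h : s ≤ -1 ∨ 0 ≤ s) : deriv cut s = 0 := by
  have hcl : IsClosed {s : ℝ | deriv cut s = 0} := isClosed_eq Cut_cd continuous_const
  have h1 : Iio (-1 : ℝ) ⊆ {s : ℝ | deriv cut s = 0} := by
    intro x hx
    have he : cut =ᶠ[𝓝 x] fun _ => (1 : ℝ) := by
      filter_upwards [Iio_mem_nhds hx] with y hy
      exact Cut_one hy.le
    show deriv cut x = 0
    rw [he.deriv_eq, deriv_const]
  have h2 : Ioi (0 : ℝ) ⊆ {s : ℝ | deriv cut s = 0} := by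
    intro x hx
    have he : cut =ᶠ[𝓝 x] fun _ => (0 : ℝ) := by
      filter_upwards [Ioi_mem_nhds hx] with y hy
      exact Cut_zero (le_of_lt hy)
    show deriv cut x = 0
    rw [he.deriv_eq, deriv_const]
  rcases h with h | h
  · have h3 := closure_minimal h1 hcl
    rw [closure_Iio] at h3
    exact h3 h
  · have h3 := closure_minimal h2 hcl
    rw [closure_Ioi] at h3
    exact h3 h

theorem wt_continuous (ε : ℝ) : Continuous (wt ε) := by
  unfold wt
  exact ((Cut_cd.comp (continuous_id.div_const ε)).neg).div_const ε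

/-- `cut` is nonincreasing (`Real.smoothTransition.monotone`). -/
theorem wt_nonneg (ε : ℝ) (hε : 0 < ε) (s : ℝ) : 0 ≤ wt ε s := by
  unfold wt
  exact div_nonneg (neg_nonneg.2 Cut_anti.deriv_nonpos) hε.le

theorem wt_eq_zero (ε : ℝ) (hε : 0 < ε) (s : ℝ) (h : s ≤ -ε ∨ 0 ≤ s) : wt ε s = 0 := by
  unfold wt
  rw [Cut_deriv_zero, neg_zero, zero_div]
  rcases h with h | h
  · left
    rw [div_le_iff₀ hε]
    linarith
  · right
    exact div_nonneg h hε.le

private theorem Cut_wt_deriv (ε : ℝ) (s : ℝ) :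
    HasDerivAt (fun s => -cut (s / ε)) (wt ε s) s := by
  have h1 := ((Cut_diff (s / ε)).comp s ((hasDerivAt_id s).div_const ε)).neg
  have h2 : -(deriv cut (s / ε) * (1 / ε)) = wt ε s := by
    unfold wt
    ring
  rw [h2] at h1
  exact h1

/-- `∫_a^b wt ε = cut (a/ε) - cut (b/ε)`. -/
theorem wt_integral (ε : ℝ) (hε : 0 < ε) (a b : ℝ) :
    ∫ s in a..b, wt ε s = cut (a / ε) - cut (b / ε) := by
  rw [intervalIntegral.integral_eq_sub_of_hasDerivAt (fun s _ => Cut_wt_deriv ε s)
    ((wt_continuous ε).intervalIntegrable a b)]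
  ring

private theorem Cut_subst (r : ℝ → ℝ) (hr : ContDiff ℝ 1 r) (ε : ℝ) (hε : 0 < ε) (a b : ℝ) :
    ∫ s in a..b, wt ε (r s) * deriv r s = cut (r a / ε) - cut (r b / ε) := by
  have h := intervalIntegral.integral_comp_mul_deriv (a := a) (b := b) (f := r) (f' := deriv r)
    (g := wt ε) (fun x _ => ((hr.differentiable (by simp)) x).hasDerivAt)
    (hr.continuous_deriv (by simp)).continuousOn (wt_continuous ε)
  rw [wt_integral ε hε] at h
  exact h

/-- a compact interval containing a compact subset of an interval -/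
private theorem Cut_interval (K I : Set ℝ) (hK : IsCompact K) (hKI : K ⊆ I)
    (hI' : I.OrdConnected) {s0 : ℝ} (hs0 : s0 ∈ I) :
    ∃ a b, a ≤ b ∧ K ⊆ Icc a b ∧ Icc a b ⊆ I := by
  rcases K.eq_empty_or_nonempty with rfl | hne
  · exact ⟨s0, s0, le_rfl, empty_subset _, by
      rw [Icc_self]
      exact singleton_subset_iff.2 hs0⟩
  · refine ⟨sInf K, sSup K, ?_, ?_, ?_⟩
    · obtain ⟨x, hx⟩ := hne
      exact (csInf_le hK.bddBelow hx).trans (le_csSup hK.bddAbove hx)
    · intro x hx
      exact ⟨csInf_le hK.bddBelow hx, le_csSup hK.bddAbove hx⟩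
    · exact hI'.out (hKI (hK.sInf_mem hne)) (hKI (hK.sSup_mem hne))

private theorem Cut_u_fderiv (ρ : Ev n → ℝ) (hρ : ContDiff ℝ 1 ρ) (ε : ℝ) (x v : Ev n) :
    fderiv ℝ (fun x => cut (ρ x / ε)) x v = -(wt ε (ρ x) * fderiv ℝ ρ x v) := by
  have h1 : HasFDerivAt ρ (fderiv ℝ ρ x) x := ((hρ.differentiable (by simp)) x).hasFDerivAt
  have h2 : HasDerivAt (fun s => cut (s / ε)) (-wt ε (ρ x)) (ρ x) := by
    have h3 := (Cut_wt_deriv ε (ρ x)).neg
    have h4 : (-fun s => -cut (s / ε)) = fun s => cut (s / ε) := by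
      funext s
      simp
    rwa [h4] at h3
  have h3 := h2.comp_hasFDerivAt x h1
  have h4 : (fun x => cut (ρ x / ε)) = (fun s => cut (s / ε)) ∘ ρ := rfl
  rw [h4, h3.fderiv]
  simp

private theorem Cut_parts (ρ : Ev n → ℝ) (hρ : ContDiff ℝ 1 ρ) (W : Ev n → Ev n)
    (hW : ContDiff ℝ 1 W) (hc : HasCompactSupport W) (ε : ℝ) :
    ∫ x, wt ε (ρ x) * fderiv ℝ ρ x (W x) = ∫ x, cut (ρ x / ε) * dv W x := by
  have hu : ContDiff ℝ 1 (fun x => cut (ρ x / ε)) := by
    have h1 : ContDiff ℝ 1 cut := cut_contDiff.of_le (by exact_mod_cast le_top)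
    exact h1.comp (hρ.div_const ε)
  have hWi : ∀ i : Fin n, ContDiff ℝ 1 (fun x => W x i) := fun i =>
    (EuclideanSpace.proj i : Ev n →L[ℝ] ℝ).contDiff.comp hW
  have hWd : ∀ (i : Fin n) (x v : Ev n),
      fderiv ℝ (fun x => W x i) x v = (fderiv ℝ W x v) i := by
    intro i x v
    have h1 : HasFDerivAt W (fderiv ℝ W x) x := ((hW.differentiable (by simp)) x).hasFDerivAt
    have h2 := (EuclideanSpace.proj i : Ev n →L[ℝ] ℝ).hasFDerivAt.comp x h1
    have h3 : (fun x => W x i) =
        (EuclideanSpace.proj i : Ev n →L[ℝ] ℝ) ∘ W := rfl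
    rw [h3, h2.fderiv]
    rfl
  have hWic : ∀ i : Fin n, HasCompactSupport (fun x => W x i) := fun i =>
    hc.comp_left (g := fun y : Ev n => y i) rfl
  have hWdc : ∀ (i : Fin n) (v : Ev n),
      HasCompactSupport (fun x => fderiv ℝ (fun x => W x i) x v) := fun i v =>
    (hWic i).fderiv_apply (𝕜 := ℝ) v
  have hWdcont : ∀ (i : Fin n) (v : Ev n),
      Continuous (fun x => fderiv ℝ (fun x => W x i) x v) := fun i v =>
    ((hWi i).continuous_fderiv (by simp)).clm_apply continuous_const
  have hucont : ∀ v : Ev n, Continuous (fun x => fderiv ℝ (fun x => cut (ρ x / ε)) x v) :=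
    fun v => (hu.continuous_fderiv (by simp)).clm_apply continuous_const
  have hparts : ∀ i : Fin n, ∫ x, cut (ρ x / ε) *
      fderiv ℝ (fun x => W x i) x (EuclideanSpace.single i 1) =
      ∫ x, wt ε (ρ x) * fderiv ℝ ρ x (EuclideanSpace.single i 1) * W x i := by
    intro i
    rw [integral_mul_fderiv_eq_neg_fderiv_mul_of_integrable, ← integral_neg]
    · refine integral_congr_ae (Filter.Eventually.of_forall fun x => ?_)
      show -(fderiv ℝ (fun x => cut (ρ x / ε)) x (EuclideanSpace.single i 1) * W x i) = _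
      rw [Cut_u_fderiv ρ hρ]
      ring
    · exact ((hucont _).mul (hWi i).continuous).integrable_of_hasCompactSupport
        (hWic i).mul_left
    · exact (hu.continuous.mul (hWdcont i _)).integrable_of_hasCompactSupport
        (hWdc i _).mul_left
    · exact (hu.continuous.mul (hWi i).continuous).integrable_of_hasCompactSupport
        (hWic i).mul_left
    · exact fun x _ => (hu.differentiable (by simp)) x
    · exact fun x _ => ((hWi i).differentiable (by simp)) x
  have hexp : ∀ x, wt ε (ρ x) * fderiv ℝ ρ x (W x) =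
      ∑ i, wt ε (ρ x) * fderiv ℝ ρ x (EuclideanSpace.single i 1) * W x i := by
    intro x
    have h1 : W x = ∑ i, W x i • (EuclideanSpace.single i (1 : ℝ) : Ev n) := by
      have h2 := (EuclideanSpace.basisFun (Fin n) ℝ).sum_repr (W x)
      conv_lhs => rw [← h2]
      refine Finset.sum_congr rfl fun i _ => ?_
      rw [EuclideanSpace.basisFun_apply, EuclideanSpace.basisFun_repr]
    conv_lhs => rw [h1]
    rw [map_sum, Finset.mul_sum]
    refine Finset.sum_congr rfl fun i _ => ?_
    rw [map_smul, smul_eq_mul]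
    ring
  have hexp2 : ∀ x, cut (ρ x / ε) * dv W x =
      ∑ i, cut (ρ x / ε) * fderiv ℝ (fun x => W x i) x (EuclideanSpace.single i 1) := by
    intro x
    unfold dv
    rw [Finset.mul_sum]
    refine Finset.sum_congr rfl fun i _ => ?_
    rw [hWd]
  simp_rw [hexp, hexp2]
  rw [integral_finsetSum, integral_finsetSum]
  · exact Finset.sum_congr rfl fun i _ => (hparts i).symm
  · intro i _
    exact (hu.continuous.mul (hWdcont i _)).integrable_of_hasCompactSupport
      (hWdc i _).mul_left
  · intro i _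
    have h1 : Continuous (fun x => wt ε (ρ x) * fderiv ℝ ρ x (EuclideanSpace.single i 1)) :=
      ((wt_continuous ε).comp hρ.continuous).mul
        ((hρ.continuous_fderiv (by simp)).clm_apply continuous_const)
    exact (h1.mul (hWi i).continuous).integrable_of_hasCompactSupport (hWic i).mul_left

/-- First form of the divergence theorem. Proof: `u_ε = cut (ρ/ε)` is `C^1`; integration by parts
(`integral_mul_fderiv_eq_neg_fderiv_mul_of_integrable`, componentwise, compact supports) gives
`∫ u_ε div W = -∫ Du_ε(W) = ∫ wt ε (ρ) dρ(W)`; as `ε → 0+`, `u_ε → 1_{ρ<0}` pointwise, bounded by `1`;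
dominated convergence. -/
theorem layer_tendsto (ρ : Ev n → ℝ) (hρ : ContDiff ℝ 1 ρ) (W : Ev n → Ev n)
    (hW : ContDiff ℝ 1 W) (hc : HasCompactSupport W) :
    Tendsto (fun ε : ℝ => ∫ x, wt ε (ρ x) * fderiv ℝ ρ x (W x)) (𝓝[>] 0)
      (𝓝 (∫ x in {x | ρ x < 0}, dv W x)) := by
  simp_rw [Cut_parts ρ hρ W hW hc]
  have hdvc : Continuous (dv W) := by
    unfold dv
    refine continuous_finsetSum _ fun i _ => ?_
    have h1 : Continuous fun x => fderiv ℝ W x (EuclideanSpace.single i 1) :=
      (hW.continuous_fderiv (by simp)).clm_apply continuous_const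
    exact (EuclideanSpace.proj i : Ev n →L[ℝ] ℝ).continuous.comp h1
  have hdvs : HasCompactSupport (dv W) := by
    have h1 : HasCompactSupport (fderiv ℝ W) := hc.fderiv (𝕜 := ℝ)
    refine h1.comp_left (g := fun L : Ev n →L[ℝ] Ev n =>
      ∑ i : Fin n, (L (EuclideanSpace.single i 1)) i) ?_
    simp
  have hint : Integrable (dv W) := hdvc.integrable_of_hasCompactSupport hdvs
  have hopen : IsOpen {x | ρ x < 0} := isOpen_lt hρ.continuous continuous_const
  rw [← integral_indicator hopen.measurableSet]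
  refine tendsto_integral_filter_of_dominated_convergence (fun x => ‖dv W x‖) ?_ ?_ hint.norm ?_
  · refine Filter.Eventually.of_forall fun ε => ?_
    refine Continuous.aestronglyMeasurable ?_
    exact (cut_contDiff.continuous.comp (hρ.continuous.div_const ε)).mul hdvc
  · refine Filter.Eventually.of_forall fun ε => Filter.Eventually.of_forall fun x => ?_
    rw [norm_mul, Real.norm_eq_abs, abs_of_nonneg (Cut_nonneg _)]
    exact mul_le_of_le_one_left (norm_nonneg _) (Cut_le_one _)
  · refine Filter.Eventually.of_forall fun x => ?_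
    by_cases hx : ρ x < 0
    · rw [indicator_of_mem (show x ∈ {x | ρ x < 0} from hx)]
      refine tendsto_const_nhds.congr' ?_
      have hev : ∀ᶠ ε : ℝ in 𝓝[>] 0, ε < -ρ x :=
        mem_nhdsWithin_of_mem_nhds (Iio_mem_nhds (by linarith))
      filter_upwards [hev, self_mem_nhdsWithin] with ε hε1 hε0
      have hε : 0 < ε := hε0
      rw [Cut_one, one_mul]
      rw [div_le_iff₀ hε]
      linarith
    · rw [indicator_of_notMem (show x ∉ {x | ρ x < 0} from hx)]
      refine tendsto_const_nhds.congr' ?_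
      filter_upwards [self_mem_nhdsWithin] with ε hε0
      have hε : 0 < ε := hε0
      rw [Cut_zero (div_nonneg (not_lt.1 hx) hε.le), zero_mul]

/-- One dimensional bound: `∫ wt(r) r' φ ≤ M ∫_I wt(r) r' ≤ M` (the set `I` is an interval on which
`r` is strictly increasing; on a compact interval `[a,b]` containing `tsupport φ`, inside `I`,
substitution gives `∫_a^b wt(r) r' = ∫_{r a}^{r b} wt ≤ 1`). -/
theorem oneD_bound (r φ : ℝ → ℝ) (hr : ContDiff ℝ 1 r) (hφ : Continuous φ)
    (hc : HasCompactSupport φ) (I : Set ℝ) (hI : IsOpen I) (hI' : I.OrdConnected)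
    (hsupp : tsupport φ ⊆ I) (hpos : ∀ s ∈ I, 0 < deriv r s) (hφ0 : ∀ s, 0 ≤ φ s) (M : ℝ)
    (hM : ∀ s, φ s ≤ M) (ε : ℝ) (hε : 0 < ε) :
    ∫ s, wt ε (r s) * (deriv r s * φ s) ≤ M := by
  have hM0 : 0 ≤ M := (hφ0 0).trans (hM 0)
  have hcd : Continuous (deriv r) := hr.continuous_deriv (by simp)
  rcases I.eq_empty_or_nonempty with rfl | ⟨s0, hs0⟩
  · have h1 : ∀ s, φ s = 0 := fun s =>
      image_eq_zero_of_notMem_tsupport fun h => (hsupp h).elim
    simp [h1, hM0]
  · obtain ⟨a, b, hab, hK, hKI⟩ := Cut_interval _ I hc hsupp hI' hs0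
    have hz : ∀ s, s ∉ Icc a b → wt ε (r s) * (deriv r s * φ s) = 0 := by
      intro s hs
      rw [image_eq_zero_of_notMem_tsupport fun h => hs (hK h), mul_zero, mul_zero]
    have h1 : ∫ s, wt ε (r s) * (deriv r s * φ s) =
        ∫ s in a..b, wt ε (r s) * (deriv r s * φ s) := by
      rw [intervalIntegral.integral_of_le hab, ← integral_Icc_eq_integral_Ioc]
      exact (setIntegral_eq_integral_of_forall_compl_eq_zero hz).symm
    rw [h1]
    have h2 : ∫ s in a..b, wt ε (r s) * (deriv r s * φ s) ≤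
        ∫ s in a..b, M * (wt ε (r s) * deriv r s) := by
      refine intervalIntegral.integral_mono_on hab ?_ ?_ ?_
      · exact (((wt_continuous ε).comp hr.continuous).mul (hcd.mul hφ)).intervalIntegrable a b
      · exact (continuous_const.mul
          (((wt_continuous ε).comp hr.continuous).mul hcd)).intervalIntegrable a b
      · intro s hs
        have h3 := wt_nonneg ε hε (r s)
        have h4 := (hpos s (hKI hs)).le
        have h5 : 0 ≤ wt ε (r s) * deriv r s := mul_nonneg h3 h4
        have h6 := mul_le_mul_of_nonneg_left (hM s) h5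
        calc wt ε (r s) * (deriv r s * φ s) = wt ε (r s) * deriv r s * φ s := by ring
          _ ≤ wt ε (r s) * deriv r s * M := h6
          _ = M * (wt ε (r s) * deriv r s) := by ring
    refine h2.trans ?_
    rw [intervalIntegral.integral_const_mul, Cut_subst r hr ε hε]
    have h3 := Cut_le_one (r a / ε)
    have h4 := Cut_nonneg (r b / ε)
    nlinarith

/-- One dimensional limit at a zero of `r` in `I`. Proof: `r ≠ 0` on `tsupport φ \ {s0}`; given `η`,
near `s0` one has `|φ - φ s0| < η`, away from `s0` (inside `tsupport φ`) `|r| ≥ c > 0` so `wt ε (r) = 0`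
for `ε < c`; near `s0` the integral of `wt(r) r'` over a small interval `[s0 - τ, s0 + τ] ⊆ I` is `1`
for small `ε`. -/
theorem oneD_tendsto (r φ : ℝ → ℝ) (hr : ContDiff ℝ 1 r) (hφ : Continuous φ)
    (hc : HasCompactSupport φ) (I : Set ℝ) (hI : IsOpen I) (hI' : I.OrdConnected)
    (hsupp : tsupport φ ⊆ I) (hpos : ∀ s ∈ I, 0 < deriv r s) (s0 : ℝ) (hs0 : s0 ∈ I)
    (hr0 : r s0 = 0) :
    Tendsto (fun ε : ℝ => ∫ s, wt ε (r s) * (deriv r s * φ s)) (𝓝[>] 0) (𝓝 (φ s0)) := by
  have hcd : Continuous (deriv r) := hr.continuous_deriv (by simp)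
  have hmono : StrictMonoOn r I := by
    refine strictMonoOn_of_deriv_pos hI'.convex hr.continuous.continuousOn ?_
    rw [hI.interior_eq]
    exact hpos
  rw [Metric.tendsto_nhds]
  intro η hη
  obtain ⟨τ, hτ, hτI, hτφ⟩ : ∃ τ > 0, Icc (s0 - τ) (s0 + τ) ⊆ I ∧
      ∀ s ∈ Icc (s0 - τ) (s0 + τ), |φ s - φ s0| ≤ η / 2 := by
    obtain ⟨τ1, hτ1, h1⟩ := Metric.isOpen_iff.1 hI s0 hs0
    obtain ⟨τ2, hτ2, h2⟩ := Metric.continuous_iff.1 hφ s0 (η / 2) (by linarith)
    refine ⟨min τ1 τ2 / 2, by positivity, ?_, ?_⟩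
    · intro s hs
      refine h1 ?_
      rw [Metric.mem_ball, Real.dist_eq, abs_lt]
      have := min_le_left τ1 τ2
      constructor <;> linarith [hs.1, hs.2]
    · intro s hs
      have h3 : dist s s0 < τ2 := by
        rw [Real.dist_eq, abs_lt]
        have := min_le_right τ1 τ2
        constructor <;> linarith [hs.1, hs.2]
      have h4 := h2 s h3
      rw [Real.dist_eq] at h4
      exact h4.le
  have hτm : s0 - τ ∈ Icc (s0 - τ) (s0 + τ) := ⟨le_rfl, by linarith⟩
  have hτp : s0 + τ ∈ Icc (s0 - τ) (s0 + τ) := ⟨by linarith, le_rfl⟩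
  have hneg : r (s0 - τ) < 0 := by
    rw [← hr0]
    exact hmono (hτI hτm) hs0 (by linarith)
  have hpos' : 0 < r (s0 + τ) := by
    rw [← hr0]
    exact hmono hs0 (hτI hτp) (by linarith)
  have hev : ∀ᶠ ε : ℝ in 𝓝[>] 0, ε < -r (s0 - τ) := by
    refine mem_nhdsWithin_of_mem_nhds (Iio_mem_nhds ?_)
    linarith
  filter_upwards [hev, self_mem_nhdsWithin] with ε hε1 hε0
  have hε : 0 < ε := hε0
  have hz : ∀ s, s ∉ Icc (s0 - τ) (s0 + τ) → wt ε (r s) * (deriv r s * φ s) = 0 := by
    intro s hs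
    by_cases hsI : s ∈ tsupport φ
    · have hsI' := hsupp hsI
      have hw : wt ε (r s) = 0 := by
        refine wt_eq_zero ε hε _ ?_
        rcases lt_or_ge s (s0 - τ) with h | h
        · left
          have := hmono hsI' (hτI hτm) h
          linarith
        · right
          have h' : s0 + τ < s := by
            by_contra h''
            exact hs ⟨h, not_lt.1 h''⟩
          have := hmono (hτI hτp) hsI' h'
          linarith
      rw [hw, zero_mul]
    · rw [image_eq_zero_of_notMem_tsupport hsI, mul_zero, mul_zero]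
  have hab : s0 - τ ≤ s0 + τ := by linarith
  have h1 : ∫ s, wt ε (r s) * (deriv r s * φ s) =
      ∫ s in (s0 - τ)..(s0 + τ), wt ε (r s) * (deriv r s * φ s) := by
    rw [intervalIntegral.integral_of_le hab, ← integral_Icc_eq_integral_Ioc]
    exact (setIntegral_eq_integral_of_forall_compl_eq_zero hz).symm
  have hmass : ∫ s in (s0 - τ)..(s0 + τ), wt ε (r s) * deriv r s = 1 := by
    rw [Cut_subst r hr ε hε, Cut_one, Cut_zero, sub_zero]
    · exact div_nonneg hpos'.le hε.le
    · rw [div_le_iff₀ hε]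
      linarith
  have hi1 : IntervalIntegrable (fun s => wt ε (r s) * (deriv r s * φ s)) volume (s0 - τ)
      (s0 + τ) :=
    (((wt_continuous ε).comp hr.continuous).mul (hcd.mul hφ)).intervalIntegrable _ _
  have hi2 : IntervalIntegrable (fun s => φ s0 * (wt ε (r s) * deriv r s)) volume (s0 - τ)
      (s0 + τ) :=
    (continuous_const.mul (((wt_continuous ε).comp hr.continuous).mul hcd)).intervalIntegrable _ _
  have h2 : (∫ s, wt ε (r s) * (deriv r s * φ s)) - φ s0 =
      ∫ s in (s0 - τ)..(s0 + τ), (wt ε (r s) * deriv r s) * (φ s - φ s0) := by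
    have h3 : φ s0 = ∫ s in (s0 - τ)..(s0 + τ), φ s0 * (wt ε (r s) * deriv r s) := by
      rw [intervalIntegral.integral_const_mul, hmass, mul_one]
    rw [h1]
    conv_lhs => rw [h3]
    rw [← intervalIntegral.integral_sub hi1 hi2]
    refine intervalIntegral.integral_congr fun s _ => ?_
    ring
  have h3 : ‖∫ s in (s0 - τ)..(s0 + τ), (wt ε (r s) * deriv r s) * (φ s - φ s0)‖ ≤
      ∫ s in (s0 - τ)..(s0 + τ), η / 2 * (wt ε (r s) * deriv r s) := by
    refine intervalIntegral.norm_integral_le_of_norm_le hab ?_ ?_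
    · refine Filter.Eventually.of_forall fun s hs => ?_
      have hs' : s ∈ Icc (s0 - τ) (s0 + τ) := ⟨hs.1.le, hs.2⟩
      have h5 : 0 ≤ wt ε (r s) * deriv r s :=
        mul_nonneg (wt_nonneg ε hε _) (hpos s (hτI hs')).le
      rw [norm_mul, Real.norm_eq_abs, Real.norm_eq_abs, abs_of_nonneg h5, mul_comm]
      exact mul_le_mul_of_nonneg_right (hτφ s hs') h5
    · exact (continuous_const.mul
        (((wt_continuous ε).comp hr.continuous).mul hcd)).intervalIntegrable _ _
  rw [intervalIntegral.integral_const_mul, hmass, mul_one, ← h2] at h3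
  rw [dist_eq_norm]
  linarith

/-- If `r` has no zero in `I` the integrals vanish for small `ε`. -/
theorem oneD_zero (r φ : ℝ → ℝ) (hr : ContDiff ℝ 1 r) (hφ : Continuous φ)
    (hc : HasCompactSupport φ) (I : Set ℝ)
    (hsupp : tsupport φ ⊆ I) (hne : ∀ s ∈ I, r s ≠ 0) :
    ∀ᶠ ε : ℝ in 𝓝[>] 0, ∫ s, wt ε (r s) * (deriv r s * φ s) = 0 := by
  obtain ⟨c, hc0, hcr⟩ : ∃ c > 0, ∀ s ∈ tsupport φ, c ≤ |r s| := by
    rcases (tsupport φ).eq_empty_or_nonempty with h | h
    · exact ⟨1, one_pos, fun s hs => by rw [h] at hs; exact hs.elim⟩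
    · obtain ⟨x, hx, hmin⟩ := (show IsCompact (tsupport φ) from hc).exists_isMinOn h
        (hr.continuous.abs).continuousOn
      exact ⟨|r x|, abs_pos.2 (hne x (hsupp hx)), fun s hs => hmin hs⟩
  have hev : ∀ᶠ ε : ℝ in 𝓝[>] 0, ε < c :=
    mem_nhdsWithin_of_mem_nhds (Iio_mem_nhds hc0)
  filter_upwards [hev, self_mem_nhdsWithin] with ε hε1 hε0
  have hε : 0 < ε := hε0
  have hz : ∀ s, wt ε (r s) * (deriv r s * φ s) = 0 := by
    intro s
    by_cases hs : s ∈ tsupport φ
    · rw [wt_eq_zero ε hε, zero_mul]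
      have h1 := hcr s hs
      rcases le_total 0 (r s) with h | h
      · right
        exact h
      · left
        rw [abs_of_nonpos h] at h1
        linarith
    · rw [image_eq_zero_of_notMem_tsupport hs, mul_zero, mul_zero]
  simp [hz]

end P219G
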