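import Vale.Agent.Lib.P219.Bd.Defs

/-!
# P219: Hausdorff measure and orthogonal projections
-/

open scoped ContDiff
open MeasureTheory Filter Topology Set
open Vale.Agent.Lib.P219 (Ev)

namespace P219G

variable {n : ℕ}

/-- The hyperplane orthogonal to `e`. -/
noncomputable abbrev Hyp (e : Ev n) : Submodule ℝ (Ev n) := (ℝ ∙ e)ᗮ

private theorem finrank_Hyp (e : Ev n) (he : ‖e‖ = 1) : Module.finrank ℝ (Hyp e) = n - 1 := by
  have h0 : e ≠ 0 := by
    intro h
    rw [h, norm_zero] at he
    exact zero_ne_one he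
  have h1 := (ℝ ∙ e).finrank_add_finrank_orthogonal
  rw [finrank_span_singleton h0, finrank_euclideanSpace_fin] at h1
  show Module.finrank ℝ (ℝ ∙ e)ᗮ = n - 1
  omega

/-- Orthogonal projections do not increase Hausdorff measure, and on the hyperplane the normalised
`(n-1)`-dimensional Hausdorff measure is Lebesgue measure
(`InnerProductSpace.euclideanHausdorffMeasure_eq_volume`, `LipschitzWith.hausdorffMeasure_image_le`
with constant `1`; `finrank (Hyp e) = n - 1` for `e ≠ 0`). -/
theorem volume_proj_le (e : Ev n) (he : ‖e‖ = 1) (T : Set (Ev n)) :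
    (volume : Measure (Hyp e)) ((Hyp e).orthogonalProjectionOnto '' T) ≤
      Measure.euclideanHausdorffMeasure (n - 1) T := by
  rw [← InnerProductSpace.euclideanHausdorffMeasure_eq_volume, finrank_Hyp e he,
    Measure.euclideanHausdorffMeasure_def, Measure.euclideanHausdorffMeasure_def,
    Measure.smul_apply, Measure.smul_apply]
  have h1 := (Hyp e).lipschitzWith_orthogonalProjectionOnto.hausdorffMeasure_image_le
    (d := ((n - 1 : ℕ) : ℝ)) (Nat.cast_nonneg _) T
  simp only [ENNReal.coe_one, ENNReal.one_rpow, one_mul] at h1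
  exact smul_le_smul_of_nonneg_left h1 bot_le

/-- Integrated form for a section `ψ` of the projection over `B` with values in `S`: the measure
`T ↦ vol (B ∩ ψ⁻¹ T)` is at most `T ↦ μHE (S ∩ T)` since
`B ∩ ψ⁻¹ T ⊆ proj '' (S ∩ T)`. -/
theorem lintegral_section_le (e : Ev n) (he : ‖e‖ = 1) (S : Set (Ev n)) (hS : MeasurableSet S)
    (B : Set (Hyp e)) (hB : MeasurableSet B) (ψ : Hyp e → Ev n)
    (hψ : Measurable ψ) (hψS : ∀ y ∈ B, ψ y ∈ S)
    (hψp : ∀ y ∈ B, (Hyp e).orthogonalProjectionOnto (ψ y) = y)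
    (φ : Ev n → ENNReal) (hφ : Measurable φ) :
    ∫⁻ y in B, φ (ψ y) ≤ ∫⁻ x in S, φ x ∂(Measure.euclideanHausdorffMeasure (n - 1)) := by
  rw [← lintegral_map hφ hψ]
  apply lintegral_mono' _ le_rfl
  rw [Measure.le_iff]
  intro T hT
  rw [Measure.map_apply hψ hT, Measure.restrict_apply (hψ hT), Measure.restrict_apply hT]
  refine le_trans (measure_mono ?_) (volume_proj_le e he (T ∩ S))
  rintro y ⟨hy1, hy2⟩
  exact ⟨ψ y, ⟨hy1, hψS y hy2⟩, hψp y hy2⟩

/-- Fubini for the splitting `x = y + s e`, `y ∈ Hyp e`, `s ∈ ℝ` (from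
`Submodule.measurePreserving_measurableEquivProd` / `Submodule.orthogonalDecomposition`, and the
isometry `ℝ ≃ ℝ ∙ e` for a unit vector). -/
theorem lintegral_split (e : Ev n) (he : ‖e‖ = 1) (F : Ev n → ENNReal) (hF : Measurable F) :
    ∫⁻ x, F x = ∫⁻ y : Hyp e, ∫⁻ s : ℝ, F ((y : Ev n) + s • e) := by
  have h1 : MeasurePreserving ((ℝ ∙ e).measurableEquivProd (0 : Ev n))
      (volume : Measure (Ev n)) volume := by
    have h := (ℝ ∙ e).measurePreserving_measurableEquivProd (0 : Ev n)
    rwa [InnerProductSpace.euclideanHausdorffMeasure_eq_volume] at h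
  have h2 := h1.symm
  rw [← h2.lintegral_comp_emb (MeasurableEquiv.measurableEmbedding _)]
  rw [Measure.volume_eq_prod, lintegral_prod_symm]
  · apply lintegral_congr
    intro y
    let L := LinearIsometryEquiv.toSpanUnitSingleton (𝕜 := ℝ) e he
    have h3 : MeasurePreserving L volume volume := L.measurePreserving
    rw [← h3.lintegral_comp_emb L.toHomeomorph.measurableEmbedding]
    apply lintegral_congr
    intro s
    congr 1
    rw [Submodule.measurableEquivProd_symm_apply]
    simp [L, LinearIsometryEquiv.toSpanUnitSingleton_apply]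
    abel
  · exact (hF.comp ((ℝ ∙ e).measurableEquivProd (0 : Ev n)).symm.measurable).aemeasurable

end P219G
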