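import Mathlib.Order.CompletePartialOrder
import Mathlib.Topology.Separation.CompletelyRegular
import Vale.Agent.Lib.P219.Bd.Cut
import Vale.Agent.Lib.P219.Bd.Proj

/-!
# P219: local comparison of layers with Hausdorff measure
-/

open scoped ContDiff
open MeasureTheory Filter Topology Set
open Vale.Agent.Lib.P219 (Ev)

namespace P219G

variable {n : ℕ}

private theorem lc_proj_line (e : Ev n) (y : Hyp e) (s : ℝ) :
    (Hyp e).orthogonalProjectionOnto ((y : Ev n) + s • e) = y := by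
  rw [map_add, map_smul, Submodule.orthogonalProjectionOnto_mem_subspace_eq_self,
    Submodule.orthogonalProjectionOnto_orthogonalComplement_singleton_eq_zero, smul_zero, add_zero]

private theorem lc_decomp (e : Ev n) (he : ‖e‖ = 1) (x : Ev n) :
    (((Hyp e).orthogonalProjectionOnto x : Hyp e) : Ev n) + (inner ℝ e x : ℝ) • e = x := by
  have h := Submodule.starProjection_add_starProjection_orthogonal (K := (ℝ ∙ e)) x
  rw [Submodule.starProjection_unit_singleton ℝ he] at h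
  rw [add_comm]
  exact h

private theorem lc_dir (ρ : Ev n → ℝ) (x0 : Ev n) (hd : fderiv ℝ ρ x0 ≠ 0) :
    ∃ e : Ev n, ‖e‖ = 1 ∧ fderiv ℝ ρ x0 e = ‖fderiv ℝ ρ x0‖ := by
  set v := (InnerProductSpace.toDual ℝ (Ev n)).symm (fderiv ℝ ρ x0) with hv
  have hvn : ‖v‖ = ‖fderiv ℝ ρ x0‖ := by
    rw [hv, LinearIsometryEquiv.norm_map]
  have hpos : 0 < ‖v‖ := by
    rw [hvn]
    exact norm_pos_iff.2 hd
  have happ : ∀ w, fderiv ℝ ρ x0 w = inner ℝ v w := fun w => by
    rw [hv, InnerProductSpace.toDual_symm_apply]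
  refine ⟨‖v‖⁻¹ • v, ?_, ?_⟩
  · rw [norm_smul, norm_inv, norm_norm, inv_mul_cancel₀ hpos.ne']
  · rw [happ, inner_smul_right, real_inner_self_eq_norm_sq, ← hvn]
    field_simp

private theorem lc_ball (ρ : Ev n → ℝ) (hρ : ContDiff ℝ 1 ρ) (x0 : Ev n)
    (hd : fderiv ℝ ρ x0 ≠ 0) (κ : ℝ) (hκ : 0 < κ) :
    ∃ e : Ev n, ‖e‖ = 1 ∧ ∃ δ > 0, ∀ x ∈ Metric.ball x0 δ, 0 < fderiv ℝ ρ x e ∧
      ‖fderiv ℝ ρ x‖ ≤ (1 + κ) * fderiv ℝ ρ x e := by
  obtain ⟨e, he, hde⟩ := lc_dir ρ x0 hd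
  have hpos : 0 < ‖fderiv ℝ ρ x0‖ := norm_pos_iff.2 hd
  have hc : Continuous (fderiv ℝ ρ) := hρ.continuous_fderiv one_ne_zero
  have hce : Continuous fun x => fderiv ℝ ρ x e := hc.clm_apply continuous_const
  have h1 : ∀ᶠ x in 𝓝 x0, 0 < fderiv ℝ ρ x e := by
    refine hce.continuousAt.eventually_mem (Ioi_mem_nhds ?_)
    rw [hde]
    exact hpos
  have h2 : ∀ᶠ x in 𝓝 x0, 0 < (1 + κ) * fderiv ℝ ρ x e - ‖fderiv ℝ ρ x‖ := by
    have hc2 : Continuous fun x => (1 + κ) * fderiv ℝ ρ x e - ‖fderiv ℝ ρ x‖ :=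
      (continuous_const.mul hce).sub hc.norm
    refine hc2.continuousAt.eventually_mem (Ioi_mem_nhds ?_)
    rw [hde]
    nlinarith
  obtain ⟨δ, hδ, hball⟩ := Metric.eventually_nhds_iff_ball.1 (h1.and h2)
  exact ⟨e, he, δ, hδ, fun x hx => ⟨(hball x hx).1, by linarith [(hball x hx).2]⟩⟩

section line

variable (e : Ev n) (he : ‖e‖ = 1) (y : Ev n)

include he

private theorem lc_isometry : Isometry fun s : ℝ => y + s • e := by
  refine Isometry.of_dist_eq fun s t => ?_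
  rw [dist_add_left, dist_eq_norm, ← sub_smul, norm_smul, he, mul_one, Real.dist_eq,
    Real.norm_eq_abs]

omit he in
private theorem lc_line_cont : Continuous fun s : ℝ => y + s • e :=
  continuous_const.add (continuous_id.smul continuous_const)

omit he in
private theorem lc_line_contDiff : ContDiff ℝ ∞ fun s : ℝ => y + s • e :=
  contDiff_const.add (contDiff_id.smul contDiff_const)

omit he in
private theorem lc_deriv (ρ : Ev n → ℝ) (hρ : ContDiff ℝ 1 ρ) (s : ℝ) :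
    deriv (fun s : ℝ => ρ (y + s • e)) s = fderiv ℝ ρ (y + s • e) e := by
  have h1 : HasDerivAt (fun s : ℝ => y + s • e) e s := by
    have h := ((hasDerivAt_id s).smul_const e).const_add y
    simpa using h
  have h2 := ((hρ.differentiable one_ne_zero) (y + s • e)).hasFDerivAt
  exact (h2.comp_hasDerivAt s h1).deriv

private theorem lc_compact (φ : Ev n → ℝ) (hφ : HasCompactSupport φ) :
    HasCompactSupport fun s : ℝ => φ (y + s • e) :=
  hφ.comp_isClosedEmbedding (lc_isometry e he y).isClosedEmbedding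

omit he in
private theorem lc_tsupport (φ : Ev n → ℝ) :
    tsupport (fun s : ℝ => φ (y + s • e)) ⊆ (fun s : ℝ => y + s • e) ⁻¹' (tsupport φ) := by
  refine closure_minimal (fun s hs => subset_tsupport φ ?_)
    ((isClosed_tsupport φ).preimage (lc_line_cont e y))
  exact hs

omit he in
private theorem lc_convex (x0 : Ev n) (δ : ℝ) :
    Convex ℝ ((fun s : ℝ => y + s • e) ⁻¹' (Metric.ball x0 δ)) := by
  have h := (convex_ball x0 δ).affine_preimage
    ((AffineMap.lineMap y (y + e) : ℝ →ᵃ[ℝ] Ev n))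
  have h2 : (fun s : ℝ => y + s • e) = (AffineMap.lineMap y (y + e) : ℝ →ᵃ[ℝ] Ev n) := by
    funext s
    rw [AffineMap.lineMap_apply]
    simp [add_comm]
  rw [h2]
  exact h

end line

/-- the layer integral over a line -/
private noncomputable def lcG (ρ φ : Ev n → ℝ) (e : Ev n) (ε : ℝ) (y : Ev n) : ENNReal :=
  ∫⁻ s : ℝ, ENNReal.ofReal (wt ε (ρ (y + s • e)) * (fderiv ℝ ρ (y + s • e) e * φ (y + s • e)))

section G

variable (ρ φ : Ev n → ℝ) (hρ : ContDiff ℝ 1 ρ) (hφ : Continuous φ) (hc : HasCompactSupport φ)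
  (e : Ev n) (he : ‖e‖ = 1) (x0 : Ev n) (δ : ℝ) (hsupp : tsupport φ ⊆ Metric.ball x0 δ)
  (hφ0 : ∀ x, 0 ≤ φ x) (hpos : ∀ x ∈ Metric.ball x0 δ, 0 < fderiv ℝ ρ x e)

include hφ0 hpos hsupp in
private theorem lc_nonneg (ε : ℝ) (hε : 0 < ε) (x : Ev n) :
    0 ≤ wt ε (ρ x) * (fderiv ℝ ρ x e * φ x) := by
  refine mul_nonneg (wt_nonneg ε hε _) ?_
  by_cases hx : φ x = 0
  · rw [hx, mul_zero]
  · exact mul_nonneg (hpos x (hsupp (subset_tsupport φ hx))).le (hφ0 x)

include hρ hφ hc he hφ0 hpos hsupp in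
private theorem lcG_eq (ε : ℝ) (hε : 0 < ε) (y : Ev n) :
    lcG ρ φ e ε y = ENNReal.ofReal (∫ s, wt ε ((fun s : ℝ => ρ (y + s • e)) s) *
      (deriv (fun s : ℝ => ρ (y + s • e)) s * (fun s : ℝ => φ (y + s • e)) s)) := by
  unfold lcG
  simp_rw [lc_deriv e y ρ hρ]
  rw [ofReal_integral_eq_lintegral_ofReal]
  · have hl := lc_line_cont e y
    have h1 : Continuous fun s : ℝ => wt ε (ρ (y + s • e)) :=
      (wt_continuous ε).comp (hρ.continuous.comp hl)
    have h2 : Continuous fun s : ℝ => fderiv ℝ ρ (y + s • e) e :=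
      ((hρ.continuous_fderiv one_ne_zero).comp hl).clm_apply continuous_const
    have h3 : Continuous fun s : ℝ => φ (y + s • e) := hφ.comp hl
    have h4 : HasCompactSupport fun s : ℝ => φ (y + s • e) := lc_compact e he y φ hc
    have h5 : HasCompactSupport (fun s : ℝ => fderiv ℝ ρ (y + s • e) e * φ (y + s • e)) :=
      h4.mul_left (f := fun s : ℝ => fderiv ℝ ρ (y + s • e) e)
    have h6 : HasCompactSupport (fun s : ℝ => wt ε (ρ (y + s • e)) *
        (fderiv ℝ ρ (y + s • e) e * φ (y + s • e))) :=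
      h5.mul_left (f := fun s : ℝ => wt ε (ρ (y + s • e)))
    exact (h1.mul (h2.mul h3)).integrable_of_hasCompactSupport h6
  · exact Eventually.of_forall fun s => lc_nonneg ρ φ e x0 δ hsupp hφ0 hpos ε hε _

include hρ hφ hc he hφ0 hpos hsupp in
private theorem lcG_le (M : ℝ) (hM : ∀ x, φ x ≤ M) (ε : ℝ) (hε : 0 < ε) (y : Ev n) :
    lcG ρ φ e ε y ≤ ENNReal.ofReal M := by
  rw [lcG_eq ρ φ hρ hφ hc e he x0 δ hsupp hφ0 hpos ε hε y]
  refine ENNReal.ofReal_le_ofReal ?_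
  refine oneD_bound (fun s : ℝ => ρ (y + s • e)) (fun s : ℝ => φ (y + s • e))
    (hρ.comp ((lc_line_contDiff e y).of_le (by exact_mod_cast le_top)))
    (hφ.comp (lc_line_cont e y)) (lc_compact e he y φ hc)
    ((fun s : ℝ => y + s • e) ⁻¹' (Metric.ball x0 δ))
    (Metric.isOpen_ball.preimage (lc_line_cont e y)) (lc_convex e y x0 δ).ordConnected
    ((lc_tsupport e y φ).trans (preimage_mono hsupp)) ?_ (fun s => hφ0 _) M (fun s => hM _) ε hε
  intro s hs
  rw [lc_deriv e y ρ hρ]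
  exact hpos _ hs

private theorem lcG_zero (ε : ℝ) (y : Ev n) (h : ∀ s : ℝ, φ (y + s • e) = 0) :
    lcG ρ φ e ε y = 0 := by
  unfold lcG
  simp [h]

include hρ hφ hc he hφ0 hpos hsupp in
private theorem lcG_tendsto (y : Ev n) (s0 : ℝ) (hs0 : y + s0 • e ∈ Metric.ball x0 δ)
    (hr0 : ρ (y + s0 • e) = 0) :
    Tendsto (fun ε : ℝ => lcG ρ φ e ε y) (𝓝[>] 0) (𝓝 (ENNReal.ofReal (φ (y + s0 • e)))) := by
  have h := oneD_tendsto (fun s : ℝ => ρ (y + s • e)) (fun s : ℝ => φ (y + s • e))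
    (hρ.comp ((lc_line_contDiff e y).of_le (by exact_mod_cast le_top)))
    (hφ.comp (lc_line_cont e y)) (lc_compact e he y φ hc)
    ((fun s : ℝ => y + s • e) ⁻¹' (Metric.ball x0 δ))
    (Metric.isOpen_ball.preimage (lc_line_cont e y)) (lc_convex e y x0 δ).ordConnected
    ((lc_tsupport e y φ).trans (preimage_mono hsupp)) (fun s hs => by
      rw [lc_deriv e y ρ hρ]
      exact hpos _ hs) s0 hs0 hr0
  refine Tendsto.congr' ?_ (ENNReal.tendsto_ofReal h)
  filter_upwards [self_mem_nhdsWithin] with ε hε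
  exact (lcG_eq ρ φ hρ hφ hc e he x0 δ hsupp hφ0 hpos ε hε y).symm

include hρ hφ hc he hφ0 hpos hsupp in
private theorem lcG_tendsto_zero (y : Ev n)
    (hne : ∀ s : ℝ, y + s • e ∈ Metric.ball x0 δ → ρ (y + s • e) ≠ 0) :
    Tendsto (fun ε : ℝ => lcG ρ φ e ε y) (𝓝[>] 0) (𝓝 0) := by
  have h := oneD_zero (fun s : ℝ => ρ (y + s • e)) (fun s : ℝ => φ (y + s • e))
    (hρ.comp ((lc_line_contDiff e y).of_le (by exact_mod_cast le_top)))
    (hφ.comp (lc_line_cont e y)) (lc_compact e he y φ hc)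
    ((fun s : ℝ => y + s • e) ⁻¹' (Metric.ball x0 δ))
    ((lc_tsupport e y φ).trans (preimage_mono hsupp)) (fun s hs => hne s hs)
  refine Tendsto.congr' ?_ tendsto_const_nhds
  filter_upwards [self_mem_nhdsWithin, h] with ε hε h2
  rw [lcG_eq ρ φ hρ hφ hc e he x0 δ hsupp hφ0 hpos ε hε y, h2, ENNReal.ofReal_zero]

include hρ hφ in
private theorem lcG_measurable (ε : ℝ) : Measurable fun y : Hyp e => lcG ρ φ e ε (y : Ev n) := by
  unfold lcG
  have hl : Continuous fun p : Hyp e × ℝ => (p.1 : Ev n) + p.2 • e :=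
    (continuous_subtype_val.comp continuous_fst).add (continuous_snd.smul continuous_const)
  have h1 : Continuous fun p : Hyp e × ℝ => wt ε (ρ ((p.1 : Ev n) + p.2 • e)) :=
    (wt_continuous ε).comp (hρ.continuous.comp hl)
  have h2 : Continuous fun p : Hyp e × ℝ => fderiv ℝ ρ ((p.1 : Ev n) + p.2 • e) e :=
    ((hρ.continuous_fderiv one_ne_zero).comp hl).clm_apply continuous_const
  have h3 : Continuous fun p : Hyp e × ℝ => φ ((p.1 : Ev n) + p.2 • e) := hφ.comp hl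
  have h4 : Measurable fun p : Hyp e × ℝ => ENNReal.ofReal (wt ε (ρ ((p.1 : Ev n) + p.2 • e)) *
      (fderiv ℝ ρ ((p.1 : Ev n) + p.2 • e) e * φ ((p.1 : Ev n) + p.2 • e))) :=
    (h1.mul (h2.mul h3)).measurable.ennreal_ofReal
  exact h4.lintegral_prod_right'

include hρ he hpos in
/-- the section of the projection over the zero set in the ball -/
private theorem lc_section : ∃ (B : Set (Hyp e)) (ψ : Hyp e → Ev n), MeasurableSet B ∧
    Measurable ψ ∧ (∀ y ∈ B, ρ (ψ y) = 0 ∧ ψ y ∈ Metric.ball x0 δ) ∧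
    (∀ y ∈ B, (Hyp e).orthogonalProjectionOnto (ψ y) = y) ∧
    ∀ x ∈ Metric.ball x0 δ, ρ x = 0 → (Hyp e).orthogonalProjectionOnto x ∈ B := by
  set T : Set (Ev n) := {x | ρ x = 0} ∩ Metric.ball x0 δ with hT
  have hTm : MeasurableSet T :=
    (isClosed_eq hρ.continuous continuous_const).measurableSet.inter measurableSet_ball
  have hinj : InjOn (fun x => (Hyp e).orthogonalProjectionOnto x) T := by
    intro x hx x' hx' hxx
    have hxx' : (Hyp e).orthogonalProjectionOnto x = (Hyp e).orthogonalProjectionOnto x' := hxx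
    set y : Ev n := (((Hyp e).orthogonalProjectionOnto x : Hyp e) : Ev n) with hy
    have d1 : y + (inner ℝ e x : ℝ) • e = x := lc_decomp e he x
    have d2 : y + (inner ℝ e x' : ℝ) • e = x' := by
      rw [hy, hxx']
      exact lc_decomp e he x'
    have hmono : StrictMonoOn (fun s : ℝ => ρ (y + s • e))
        ((fun s : ℝ => y + s • e) ⁻¹' (Metric.ball x0 δ)) := by
      refine strictMonoOn_of_deriv_pos (lc_convex e y x0 δ)
        (hρ.continuous.comp (lc_line_cont e y)).continuousOn fun s hs => ?_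
      rw [lc_deriv e y ρ hρ]
      have hs2 : s ∈ (fun s : ℝ => y + s • e) ⁻¹' (Metric.ball x0 δ) := interior_subset hs
      exact hpos _ hs2
    have e1 : (inner ℝ e x : ℝ) ∈ (fun s : ℝ => y + s • e) ⁻¹' (Metric.ball x0 δ) := by
      show y + (inner ℝ e x : ℝ) • e ∈ Metric.ball x0 δ
      rw [d1]
      exact hx.2
    have e2 : (inner ℝ e x' : ℝ) ∈ (fun s : ℝ => y + s • e) ⁻¹' (Metric.ball x0 δ) := by
      show y + (inner ℝ e x' : ℝ) • e ∈ Metric.ball x0 δ
      rw [d2]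
      exact hx'.2
    have e3 : (inner ℝ e x : ℝ) = inner ℝ e x' := by
      refine hmono.injOn e1 e2 ?_
      show ρ (y + (inner ℝ e x : ℝ) • e) = ρ (y + (inner ℝ e x' : ℝ) • e)
      rw [d1, d2]
      exact (show ρ x = 0 from hx.1).trans (show ρ x' = 0 from hx'.1).symm
    rw [← d1, ← d2, e3]
  have hemb := ContinuousOn.measurableEmbedding hTm
    ((Hyp e).orthogonalProjectionOnto.continuous.continuousOn) hinj
  obtain ⟨ψ, hψ, hψf⟩ := hemb.exists_measurable_extend (g := (Subtype.val : T → Ev n))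
    measurable_subtype_coe (fun _ => ⟨0⟩)
  have hval : ∀ x : T, ψ ((Hyp e).orthogonalProjectionOnto (x : Ev n)) = (x : Ev n) := fun x =>
    congrFun hψf x
  refine ⟨_, ψ, hemb.measurableSet_range, hψ, ?_, ?_, ?_⟩
  · rintro _ ⟨x, rfl⟩
    have h1 : ψ (T.domRestrict (fun x => (Hyp e).orthogonalProjectionOnto x) x) = (x : Ev n) :=
      hval x
    rw [h1]
    exact ⟨x.2.1, x.2.2⟩
  · rintro _ ⟨x, rfl⟩
    have h1 : ψ (T.domRestrict (fun x => (Hyp e).orthogonalProjectionOnto x) x) = (x : Ev n) :=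
      hval x
    rw [h1]
    rfl
  · intro x hx hρx
    exact ⟨⟨x, hρx, hx⟩, rfl⟩

end G

/-- Local comparison. Proof: let `e = ∇ρ(x0)/‖∇ρ(x0)‖`; choose the ball `U = ball x0 δ` so small that
on `U` `∂_e ρ > 0` and `‖Dρ‖ ≤ (1 + κ) ∂_e ρ` (both continuous, with equality without `κ` at `x0`). For
`φ` supported in `U`, `∫ wt(ρ)‖Dρ‖φ ≤ (1+κ) ∫ wt(ρ) ∂_eρ φ = (1+κ) ∫_{y ∈ Hyp e} G_ε(y) dy` by
`lintegral_split`, `G_ε(y) = ∫ wt(r_y) r_y' φ(y + s e) ds` with `r_y(s) = ρ(y + s e)`; the set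
`I_y = {s : y + s e ∈ U}` is an open interval (balls are convex). By `oneD_bound` `G_ε ≤ sup φ`, and
`G_ε` vanishes for `y` outside a compact set; by `oneD_tendsto` / `oneD_zero`, `G_ε(y) → φ(ψ y)` when the
line meets `{ρ = 0}` inside `U` at the (unique) point `ψ y`, and `G_ε(y) → 0` otherwise. Dominated
convergence: the limit is `∫_B φ(ψ y) dy`, `B` = projection of `{ρ = 0} ∩ U` (sigma-compact, hence
measurable; `ψ` is measurable on `B`, since `{y ∈ B : s(y) < c}` is the projection of the sigma-compact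
set `{ρ = 0} ∩ U ∩ {⟪x, e⟫ < c}`; extend `ψ` by a constant). Conclude with `lintegral_section_le`. -/
theorem local_ineq (ρ : Ev n → ℝ) (hρ : ContDiff ℝ 1 ρ) (x0 : Ev n) (h0 : ρ x0 = 0)
    (hd : fderiv ℝ ρ x0 ≠ 0) (κ : ℝ) (hκ : 0 < κ) :
    ∃ U : Set (Ev n), IsOpen U ∧ x0 ∈ U ∧ ∀ φ : Ev n → ℝ, Continuous φ → HasCompactSupport φ →
      tsupport φ ⊆ U → (∀ x, 0 ≤ φ x) →
      limsup (fun ε : ℝ => ENNReal.ofReal (∫ x, wt ε (ρ x) * (‖fderiv ℝ ρ x‖ * φ x))) (𝓝[>] 0) ≤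
        ENNReal.ofReal (1 + κ) * ∫⁻ x in {x | ρ x = 0}, ENNReal.ofReal (φ x)
          ∂(Measure.euclideanHausdorffMeasure (n - 1)) := by
  obtain ⟨e, he, δ, hδ, hU⟩ := lc_ball ρ hρ x0 hd κ hκ
  refine ⟨Metric.ball x0 δ, Metric.isOpen_ball, Metric.mem_ball_self hδ, ?_⟩
  intro φ hφ hφc hsupp hφ0
  have hpos : ∀ x ∈ Metric.ball x0 δ, 0 < fderiv ℝ ρ x e := fun x hx => (hU x hx).1
  obtain ⟨B, ψ, hB, hψ, hψT, hψp, hBx⟩ := lc_section ρ hρ e he x0 δ hpos
  obtain ⟨M, hM⟩ : ∃ M : ℝ, ∀ x, φ x ≤ M := by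
    obtain ⟨M, hM⟩ := hφc.exists_bound_of_continuous hφ
    exact ⟨M, fun x => (le_abs_self _).trans (hM x)⟩
  set K : Set (Hyp e) := (fun x => (Hyp e).orthogonalProjectionOnto x) '' tsupport φ with hK
  have hKc : IsCompact K := hφc.isCompact.image (Hyp e).orthogonalProjectionOnto.continuous
  have hlim : Tendsto (fun ε : ℝ => ∫⁻ y : Hyp e, lcG ρ φ e ε (y : Ev n)) (𝓝[>] 0)
      (𝓝 (∫⁻ y : Hyp e, B.indicator (fun y => ENNReal.ofReal (φ (ψ y))) y)) := by
    refine tendsto_lintegral_filter_of_dominated_convergence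
      (K.indicator fun _ => ENNReal.ofReal M) ?_ ?_ ?_ ?_
    · exact Eventually.of_forall fun ε => lcG_measurable ρ φ hρ hφ e ε
    · filter_upwards [self_mem_nhdsWithin] with ε hε
      refine Eventually.of_forall fun y => ?_
      by_cases hy : y ∈ K
      · rw [indicator_of_mem hy]
        exact lcG_le ρ φ hρ hφ hφc e he x0 δ hsupp hφ0 hpos M hM ε hε _
      · rw [indicator_of_notMem hy, lcG_zero ρ φ e ε]
        intro s
        by_contra hne
        exact hy ⟨(y : Ev n) + s • e, subset_tsupport φ hne, lc_proj_line e y s⟩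
    · rw [lintegral_indicator hKc.measurableSet, setLIntegral_const]
      exact ENNReal.mul_ne_top ENNReal.ofReal_ne_top hKc.measure_lt_top.ne
    · refine Eventually.of_forall fun y => ?_
      by_cases hy : y ∈ B
      · rw [indicator_of_mem hy]
        have hd1 := lc_decomp e he (ψ y)
        rw [hψp y hy] at hd1
        have h := lcG_tendsto ρ φ hρ hφ hφc e he x0 δ hsupp hφ0 hpos (y : Ev n)
          (inner ℝ e (ψ y)) (by rw [hd1]; exact (hψT y hy).2) (by rw [hd1]; exact (hψT y hy).1)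
        rwa [hd1] at h
      · rw [indicator_of_notMem hy]
        refine lcG_tendsto_zero ρ φ hρ hφ hφc e he x0 δ hsupp hφ0 hpos (y : Ev n) ?_
        intro s hs hr
        apply hy
        have h := hBx _ hs hr
        rwa [lc_proj_line e y s] at h
  have hle : ∀ᶠ ε : ℝ in 𝓝[>] 0,
      ENNReal.ofReal (∫ x, wt ε (ρ x) * (‖fderiv ℝ ρ x‖ * φ x)) ≤
        ENNReal.ofReal (1 + κ) * ∫⁻ y : Hyp e, lcG ρ φ e ε (y : Ev n) := by
    filter_upwards [self_mem_nhdsWithin] with ε hε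
    have hcw : Continuous fun x => wt ε (ρ x) := (wt_continuous ε).comp hρ.continuous
    have hcd : Continuous (fderiv ℝ ρ) := hρ.continuous_fderiv one_ne_zero
    have hce : Continuous fun x => fderiv ℝ ρ x e := hcd.clm_apply continuous_const
    have hs1 : HasCompactSupport (fun x => ‖fderiv ℝ ρ x‖ * φ x) :=
      hφc.mul_left (f := fun x => ‖fderiv ℝ ρ x‖)
    have hs2 : HasCompactSupport (fun x => wt ε (ρ x) * (‖fderiv ℝ ρ x‖ * φ x)) :=
      hs1.mul_left (f := fun x => wt ε (ρ x))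
    have hs3 : HasCompactSupport (fun x => fderiv ℝ ρ x e * φ x) :=
      hφc.mul_left (f := fun x => fderiv ℝ ρ x e)
    have hs4 : HasCompactSupport (fun x => wt ε (ρ x) * (fderiv ℝ ρ x e * φ x)) :=
      hs3.mul_left (f := fun x => wt ε (ρ x))
    have hi1 : Integrable (fun x => wt ε (ρ x) * (‖fderiv ℝ ρ x‖ * φ x)) :=
      (hcw.mul (hcd.norm.mul hφ)).integrable_of_hasCompactSupport hs2
    have hi2 : Integrable (fun x => wt ε (ρ x) * (fderiv ℝ ρ x e * φ x)) :=
      (hcw.mul (hce.mul hφ)).integrable_of_hasCompactSupport hs4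
    have hnn := lc_nonneg ρ φ e x0 δ hsupp hφ0 hpos ε hε
    have h1 : ∫ x, wt ε (ρ x) * (‖fderiv ℝ ρ x‖ * φ x) ≤
        ∫ x, (1 + κ) * (wt ε (ρ x) * (fderiv ℝ ρ x e * φ x)) := by
      refine integral_mono hi1 (hi2.const_mul _) fun x => ?_
      show wt ε (ρ x) * (‖fderiv ℝ ρ x‖ * φ x) ≤
        (1 + κ) * (wt ε (ρ x) * (fderiv ℝ ρ x e * φ x))
      by_cases hx : φ x = 0
      · rw [hx]
        simp
      · have hxb := hsupp (subset_tsupport φ hx)
        have h2 := mul_le_mul_of_nonneg_left (mul_le_mul_of_nonneg_right (hU x hxb).2 (hφ0 x))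
          (wt_nonneg ε hε (ρ x))
        calc _ ≤ _ := h2
          _ = _ := by ring
    rw [integral_const_mul] at h1
    calc ENNReal.ofReal (∫ x, wt ε (ρ x) * (‖fderiv ℝ ρ x‖ * φ x))
        ≤ ENNReal.ofReal ((1 + κ) * ∫ x, wt ε (ρ x) * (fderiv ℝ ρ x e * φ x)) :=
          ENNReal.ofReal_le_ofReal h1
      _ = ENNReal.ofReal (1 + κ) * ∫⁻ x, ENNReal.ofReal (wt ε (ρ x) * (fderiv ℝ ρ x e * φ x)) := by
          rw [ENNReal.ofReal_mul (by positivity), ofReal_integral_eq_lintegral_ofReal hi2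
            (Eventually.of_forall hnn)]
      _ = ENNReal.ofReal (1 + κ) * ∫⁻ y : Hyp e, lcG ρ φ e ε (y : Ev n) := by
          rw [lintegral_split e he (fun x => ENNReal.ofReal (wt ε (ρ x) *
            (fderiv ℝ ρ x e * φ x))) (hcw.mul (hce.mul hφ)).measurable.ennreal_ofReal]
          rfl
  have hS : MeasurableSet {x : Ev n | ρ x = 0} :=
    (isClosed_eq hρ.continuous continuous_const).measurableSet
  calc limsup (fun ε : ℝ => ENNReal.ofReal (∫ x, wt ε (ρ x) * (‖fderiv ℝ ρ x‖ * φ x))) (𝓝[>] 0)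
      ≤ limsup (fun ε : ℝ => ENNReal.ofReal (1 + κ) * ∫⁻ y : Hyp e, lcG ρ φ e ε (y : Ev n))
        (𝓝[>] 0) := limsup_le_limsup hle
    _ = ENNReal.ofReal (1 + κ) *
        ∫⁻ y : Hyp e, B.indicator (fun y => ENNReal.ofReal (φ (ψ y))) y :=
      (ENNReal.Tendsto.const_mul hlim (Or.inr ENNReal.ofReal_ne_top)).limsup_eq
    _ ≤ ENNReal.ofReal (1 + κ) * ∫⁻ x in {x | ρ x = 0}, ENNReal.ofReal (φ x)
          ∂(Measure.euclideanHausdorffMeasure (n - 1)) := by
      gcongr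
      rw [lintegral_indicator hB]
      exact lintegral_section_le e he _ hS B hB ψ hψ (fun y hy => (hψT y hy).1) hψp
        (fun x => ENNReal.ofReal (φ x)) hφ.measurable.ennreal_ofReal

end P219G
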