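import Mathlib.Topology.PartitionOfUnity
import Mathlib.Topology.UniformSpace.Uniformizable
import Vale.Agent.Lib.P219.Bd.Local

/-!
# P219: the divergence theorem (inequality) for domains with smooth boundary
-/

open scoped ContDiff
open MeasureTheory Filter Topology Set
open Vale.Agent.Lib.P219 (Ev)

namespace P219G

variable {n : ℕ}

/-- passage to the limit in a finite sum -/
private theorem glob_limit {m : ℕ} {a : ℝ → ℝ} {I : ℝ} (ha : Tendsto a (𝓝[>] 0) (𝓝 I))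
    {b : Fin m → ℝ → ℝ} {R : Fin m → ENNReal}
    (hb : ∀ k, limsup (fun ε => ENNReal.ofReal (b k ε)) (𝓝[>] 0) ≤ R k)
    (hle : ∀ᶠ ε in 𝓝[>] (0 : ℝ), a ε ≤ ∑ k, b k ε) :
    ENNReal.ofReal I ≤ ∑ k, R k := by
  by_cases htop : ∑ k, R k = ⊤
  · rw [htop]
    exact le_top
  have hfin : ∀ k, R k ≠ ⊤ := by
    intro k hk
    apply htop
    rw [ENNReal.sum_eq_top]
    exact ⟨k, Finset.mem_univ k, hk⟩
  refine ENNReal.le_of_forall_pos_le_add fun η hη _ => ?_
  have hm : (0 : ℝ) < m + 1 := by positivity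
  obtain ⟨δ, hδ⟩ : ∃ δ : ENNReal, δ = ENNReal.ofReal (η / (m + 1)) := ⟨_, rfl⟩
  have hη' : (0 : ℝ) < η := hη
  have hδ0 : δ ≠ 0 := by
    rw [hδ]
    exact (ENNReal.ofReal_pos.2 (by positivity)).ne'
  have hev : ∀ᶠ ε in 𝓝[>] (0 : ℝ), ∀ k, ENNReal.ofReal (b k ε) ≤ R k + δ := by
    rw [eventually_all]
    intro k
    have h1 : limsup (fun ε => ENNReal.ofReal (b k ε)) (𝓝[>] (0 : ℝ)) < R k + δ :=
      lt_of_le_of_lt (hb k) (ENNReal.lt_add_right (hfin k) hδ0)
    exact (eventually_lt_of_limsup_lt h1).mono fun ε h => h.le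
  have hlim : Tendsto (fun ε => ENNReal.ofReal (a ε)) (𝓝[>] 0) (𝓝 (ENNReal.ofReal I)) :=
    (ENNReal.continuous_ofReal.tendsto I).comp ha
  refine le_of_tendsto hlim ?_
  filter_upwards [hev, hle] with ε h1 h2
  calc ENNReal.ofReal (a ε) ≤ ENNReal.ofReal (∑ k, b k ε) := ENNReal.ofReal_le_ofReal h2
    _ ≤ ∑ k, ENNReal.ofReal (b k ε) := by
        refine le_trans (ENNReal.ofReal_le_ofReal
          (Finset.sum_le_sum fun k _ => le_max_left (b k ε) 0)) ?_
        rw [ENNReal.ofReal_sum_of_nonneg fun k _ => le_max_right _ _]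
        refine Finset.sum_le_sum fun k _ => le_of_eq ?_
        rcases le_total 0 (b k ε) with h | h
        · rw [max_eq_left h]
        · rw [max_eq_right h, ENNReal.ofReal_of_nonpos h, ENNReal.ofReal_zero]
    _ ≤ ∑ k, (R k + δ) := Finset.sum_le_sum fun k _ => h1 k
    _ = ∑ k, R k + m * δ := by
        rw [Finset.sum_add_distrib, Finset.sum_const, Finset.card_univ, Fintype.card_fin,
          nsmul_eq_mul]
    _ ≤ ∑ k, R k + η := by
        refine add_le_add le_rfl ?_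
        rw [hδ, ← ENNReal.ofReal_natCast, ← ENNReal.ofReal_mul (Nat.cast_nonneg m),
          ← ENNReal.ofReal_coe_nnreal]
        refine ENNReal.ofReal_le_ofReal ?_
        rw [mul_div_assoc', div_le_iff₀ hm]
        nlinarith

/-- the estimate for fixed `κ` -/
private theorem glob_kappa (ρ : Ev n → ℝ) (hρ : ContDiff ℝ 1 ρ)
    (hreg : ∀ x, ρ x = 0 → fderiv ℝ ρ x ≠ 0)
    (W : Ev n → Ev n) (hW : ContDiff ℝ 1 W) (hc : HasCompactSupport W) (κ : ℝ) (hκ : 0 < κ) :
    ENNReal.ofReal (∫ x in {x | ρ x < 0}, dv W x) ≤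
      ENNReal.ofReal (1 + κ) *
      ∫⁻ x in {x | ρ x = 0}, ENNReal.ofReal (|fderiv ℝ ρ x (W x)| / ‖fderiv ℝ ρ x‖)
        ∂(Measure.euclideanHausdorffMeasure (n - 1)) := by
  classical
  have hρc : Continuous ρ := hρ.continuous
  have hDc : Continuous (fderiv ℝ ρ) := hρ.continuous_fderiv one_ne_zero
  have hZ : IsClosed {x | ρ x = 0} := isClosed_eq hρc continuous_const
  have hK : IsCompact (tsupport W) := hc
  have hK0 : IsCompact (tsupport W ∩ {x | ρ x = 0}) := hK.inter_right hZ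
  have hOpen : IsOpen {x | fderiv ℝ ρ x ≠ 0} := isOpen_ne_fun hDc continuous_const
  -- cover
  have hloc : ∀ x : Ev n, ∃ U : Set (Ev n), IsOpen U ∧ (ρ x = 0 → x ∈ U) ∧
      U ⊆ {x | fderiv ℝ ρ x ≠ 0} ∧ ∀ φ : Ev n → ℝ, Continuous φ → HasCompactSupport φ →
      tsupport φ ⊆ U → (∀ x, 0 ≤ φ x) →
      limsup (fun ε : ℝ => ENNReal.ofReal (∫ x, wt ε (ρ x) * (‖fderiv ℝ ρ x‖ * φ x))) (𝓝[>] 0) ≤
        ENNReal.ofReal (1 + κ) * ∫⁻ x in {x | ρ x = 0}, ENNReal.ofReal (φ x)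
          ∂(Measure.euclideanHausdorffMeasure (n - 1)) := by
    intro x
    by_cases hx : ρ x = 0
    · obtain ⟨U, hU, hxU, h⟩ := local_ineq ρ hρ x hx (hreg x hx) κ hκ
      exact ⟨U ∩ {x | fderiv ℝ ρ x ≠ 0}, hU.inter hOpen, fun _ => ⟨hxU, hreg x hx⟩,
        inter_subset_right, fun φ h1 h2 h3 h4 => h φ h1 h2 (h3.trans inter_subset_left) h4⟩
    · refine ⟨∅, isOpen_empty, fun h => absurd h hx, empty_subset _, fun φ h1 h2 h3 h4 => ?_⟩
      have h5 : ∀ x, φ x = 0 := by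
        intro y
        by_contra hy
        exact (h3 (subset_tsupport φ hy)).elim
      have h6 : (fun ε : ℝ => ENNReal.ofReal (∫ x, wt ε (ρ x) * (‖fderiv ℝ ρ x‖ * φ x))) =
          fun _ => 0 := by
        funext ε
        simp only [h5, mul_zero, integral_zero, ENNReal.ofReal_zero]
      rw [h6, limsup_const]
      exact zero_le
  choose U hU hxU hUD hUφ using hloc
  obtain ⟨t, ht⟩ := hK0.elim_finite_subcover U hU
    (fun x hx => mem_iUnion.2 ⟨x, hxU x hx.2⟩)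
  let e : Fin t.card ≃ t := t.equivFin.symm
  let s : Fin t.card → Set (Ev n) := fun i => U (e i)
  have hs : ∀ i, IsOpen (s i) := fun i => hU _
  have hcov : tsupport W ∩ {x | ρ x = 0} ⊆ ⋃ i, s i := by
    intro x hx
    obtain ⟨y, hy, hxy⟩ := mem_iUnion₂.1 (ht hx)
    refine mem_iUnion.2 ⟨e.symm ⟨y, hy⟩, ?_⟩
    show x ∈ U (e (e.symm ⟨y, hy⟩))
    rw [Equiv.apply_symm_apply]
    exact hxy
  obtain ⟨N, hN, hKN, hNs⟩ := exists_compact_between hK0 (isOpen_iUnion hs) hcov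
  obtain ⟨χ, hχs, hχ1, hχ0, -⟩ := exists_continuous_sum_one_of_isOpen_isCompact hs hN hNs
  have hχsum : ∀ x ∈ N, ∑ i, χ i x = 1 := by
    intro x hx
    have h1 := hχ1 hx
    rw [Finset.sum_apply] at h1
    exact h1
  -- the functions
  let ψ : Ev n → ℝ := fun x => |fderiv ℝ ρ x (W x)| / ‖fderiv ℝ ρ x‖
  have hψ0 : ∀ x, 0 ≤ ψ x := fun x => div_nonneg (abs_nonneg _) (norm_nonneg _)
  let φ : Fin t.card → Ev n → ℝ := fun i x => χ i x * ψ x
  have hDW : Continuous fun x => fderiv ℝ ρ x (W x) := hDc.clm_apply hW.continuous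
  have hWsupp : ∀ x, x ∉ tsupport W → W x = 0 := fun x hx => image_eq_zero_of_notMem_tsupport hx
  have hψcont : ∀ x, fderiv ℝ ρ x ≠ 0 → ContinuousAt ψ x := by
    intro x hx
    exact (hDW.abs.continuousAt).div (hDc.norm.continuousAt) (norm_ne_zero_iff.2 hx)
  have hφts : ∀ i, tsupport (φ i) ⊆ s i := fun i =>
    (closure_mono (fun x hx => by
      rw [Function.mem_support] at hx ⊢
      intro h
      exact hx (by show χ i x * ψ x = 0; rw [h, zero_mul]))).trans (hχs i)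
  have hφc : ∀ i, Continuous (φ i) := by
    intro i
    refine continuous_of_tsupport fun x hx => ?_
    exact ((χ i).continuous.continuousAt).mul (hψcont x (hUD _ (hφts i hx)))
  have hφW : ∀ i x, x ∉ tsupport W → φ i x = 0 := by
    intro i x hx
    show χ i x * (|fderiv ℝ ρ x (W x)| / ‖fderiv ℝ ρ x‖) = 0
    rw [hWsupp x hx, map_zero, abs_zero, zero_div, mul_zero]
  have hφcs : ∀ i, HasCompactSupport (φ i) := fun i => HasCompactSupport.intro hK (hφW i)
  have hφ0 : ∀ i x, 0 ≤ φ i x := fun i x => mul_nonneg (hχ0 i x).1 (hψ0 x)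
  -- the layers for small `ε`
  have hsmall : ∀ᶠ ε : ℝ in 𝓝[>] 0, ∀ x ∈ tsupport W, x ∉ N → wt ε (ρ x) = 0 := by
    have hQ : IsCompact (tsupport W \ interior N) := hK.diff isOpen_interior
    rcases (tsupport W \ interior N).eq_empty_or_nonempty with hem | hne
    · filter_upwards with ε x hx hxN
      have : x ∈ tsupport W \ interior N := ⟨hx, fun h => hxN (interior_subset h)⟩
      rw [hem] at this
      exact this.elim
    · obtain ⟨x0, hx0, hmin⟩ := hQ.exists_isMinOn hne (hρc.abs.continuousOn)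
      have hpos : 0 < |ρ x0| := by
        rw [abs_pos]
        intro h
        exact hx0.2 (hKN ⟨hx0.1, h⟩)
      filter_upwards [Ioo_mem_nhdsGT hpos] with ε hε x hx hxN
      have h1 : |ρ x0| ≤ |ρ x| := hmin ⟨hx, fun h => hxN (interior_subset h)⟩
      refine wt_eq_zero ε hε.1 _ ?_
      rcases le_total 0 (ρ x) with h | h
      · exact Or.inr h
      · rw [abs_of_nonpos h] at h1
        exact Or.inl (by linarith [hε.2])
  have hle : ∀ᶠ ε in 𝓝[>] (0 : ℝ), ∫ x, wt ε (ρ x) * fderiv ℝ ρ x (W x) ≤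
      ∑ k, ∫ x, wt ε (ρ x) * (‖fderiv ℝ ρ x‖ * φ k x) := by
    filter_upwards [hsmall, self_mem_nhdsWithin] with ε hε hε0
    have hwc : Continuous fun x => wt ε (ρ x) := (wt_continuous ε).comp hρc
    have hint : ∀ k, Integrable (fun x => wt ε (ρ x) * (‖fderiv ℝ ρ x‖ * φ k x)) := by
      intro k
      refine Continuous.integrable_of_hasCompactSupport (hwc.mul (hDc.norm.mul (hφc k))) ?_
      exact ((hφcs k).mul_left).mul_left
    rw [← integral_finsetSum _ fun k _ => hint k]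
    refine integral_mono ?_ (integrable_finsetSum _ fun k _ => hint k) ?_
    · refine Continuous.integrable_of_hasCompactSupport (hwc.mul hDW) ?_
      refine HasCompactSupport.intro hK fun x hx => ?_
      rw [hWsupp x hx, map_zero, mul_zero]
    · intro x
      show wt ε (ρ x) * fderiv ℝ ρ x (W x) ≤ ∑ k, wt ε (ρ x) * (‖fderiv ℝ ρ x‖ * φ k x)
      by_cases hxW : x ∈ tsupport W
      · by_cases hxN : x ∈ N
        · have hD : fderiv ℝ ρ x ≠ 0 := by
            obtain ⟨i, hi⟩ := mem_iUnion.1 (hNs hxN)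
            exact hUD _ hi
          have h1 : ∑ k, wt ε (ρ x) * (‖fderiv ℝ ρ x‖ * φ k x) =
              wt ε (ρ x) * |fderiv ℝ ρ x (W x)| := by
            have h2 : ∀ k, wt ε (ρ x) * (‖fderiv ℝ ρ x‖ * φ k x) =
                wt ε (ρ x) * |fderiv ℝ ρ x (W x)| * χ k x := by
              intro k
              show wt ε (ρ x) * (‖fderiv ℝ ρ x‖ * (χ k x * (|fderiv ℝ ρ x (W x)| / ‖fderiv ℝ ρ x‖)))
                = _
              have h3 : ‖fderiv ℝ ρ x‖ ≠ 0 := norm_ne_zero_iff.2 hD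
              field_simp
            rw [Finset.sum_congr rfl fun k _ => h2 k, ← Finset.mul_sum, hχsum x hxN, mul_one]
          rw [h1]
          exact mul_le_mul_of_nonneg_left (le_abs_self _) (wt_nonneg ε hε0 _)
        · rw [hε x hxW hxN]
          simp only [zero_mul, Finset.sum_const_zero, le_refl]
      · rw [hWsupp x hxW, map_zero, mul_zero]
        refine le_of_eq (Finset.sum_eq_zero fun k _ => ?_).symm
        rw [hφW k x hxW, mul_zero, mul_zero]
  have key := glob_limit (layer_tendsto ρ hρ W hW hc)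
    (b := fun k ε => ∫ x, wt ε (ρ x) * (‖fderiv ℝ ρ x‖ * φ k x))
    (R := fun k => ENNReal.ofReal (1 + κ) * ∫⁻ x in {x | ρ x = 0}, ENNReal.ofReal (φ k x)
          ∂(Measure.euclideanHausdorffMeasure (n - 1)))
    (fun k => hUφ _ (φ k) (hφc k) (hφcs k) (hφts k) (hφ0 k)) hle
  refine key.trans ?_
  rw [← Finset.mul_sum]
  refine mul_le_mul_right ?_ _
  have hmeas : ∀ k, Measurable fun x => ENNReal.ofReal (φ k x) := fun k =>
    (ENNReal.continuous_ofReal.comp (hφc k)).measurable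
  rw [← lintegral_finsetSum _ fun k _ => hmeas k]
  refine setLIntegral_mono' hZ.measurableSet fun x hx => ?_
  rw [← ENNReal.ofReal_sum_of_nonneg fun k _ => hφ0 k x]
  refine ENNReal.ofReal_le_ofReal ?_
  by_cases hxW : x ∈ tsupport W
  · have hxN : x ∈ N := interior_subset (hKN ⟨hxW, hx⟩)
    show ∑ k, χ k x * ψ x ≤ ψ x
    rw [← Finset.sum_mul, hχsum x hxN, one_mul]
  · rw [Finset.sum_eq_zero fun k _ => hφW k x hxW]
    exact hψ0 x

/-- Divergence theorem, as an inequality with Hausdorff measure. Proof: let `κ > 0`; cover the compact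
set `tsupport W ∩ {ρ = 0}` by finitely many of the open sets of `local_ineq` (intersected with the open
set `{Dρ ≠ 0}`), take a continuous partition of unity `χ_k` (compactly supported in `U_k`,
`∑ χ_k = 1` on a neighbourhood `N` of the compact set, `0 ≤ χ_k`). For `ε` small,
`{-ε ≤ ρ ≤ 0} ∩ tsupport W ⊆ N` (compactness), so by `layer_tendsto`
`∫_{ρ<0} dv W = lim ∫ wt ε (ρ) Dρ(W) ≤ ∑_k limsup ∫ wt ε (ρ) ‖Dρ‖ χ_k |Dρ(W)|/‖Dρ‖`
`≤ (1+κ) ∑_k ∫_{ρ=0} χ_k |Dρ(W)|/‖Dρ‖ dμHE ≤ (1+κ) ∫_{ρ=0} |Dρ(W)|/‖Dρ‖ dμHE` (choose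
`∑ χ_k ≤ 1` everywhere). Let `κ → 0`. -/
theorem div_le (ρ : Ev n → ℝ) (hρ : ContDiff ℝ 1 ρ) (hreg : ∀ x, ρ x = 0 → fderiv ℝ ρ x ≠ 0)
    (W : Ev n → Ev n) (hW : ContDiff ℝ 1 W) (hc : HasCompactSupport W) :
    ENNReal.ofReal (∫ x in {x | ρ x < 0}, dv W x) ≤
      ∫⁻ x in {x | ρ x = 0}, ENNReal.ofReal (|fderiv ℝ ρ x (W x)| / ‖fderiv ℝ ρ x‖)
        ∂(Measure.euclideanHausdorffMeasure (n - 1)) := by
  obtain ⟨R, hR⟩ : ∃ R, R = ∫⁻ x in {x | ρ x = 0},
      ENNReal.ofReal (|fderiv ℝ ρ x (W x)| / ‖fderiv ℝ ρ x‖)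
        ∂(Measure.euclideanHausdorffMeasure (n - 1)) := ⟨_, rfl⟩
  have hlim : Tendsto (fun κ : ℝ => ENNReal.ofReal (1 + κ) * R) (𝓝[>] 0) (𝓝 (1 * R)) := by
    refine ENNReal.Tendsto.mul_const ?_ (Or.inl one_ne_zero)
    have h1 : Tendsto (fun κ : ℝ => 1 + κ) (𝓝[>] 0) (𝓝 (1 + 0)) :=
      (tendsto_const_nhds.add tendsto_id).mono_left nhdsWithin_le_nhds
    have h2 := (ENNReal.continuous_ofReal.tendsto (1 + 0 : ℝ)).comp h1
    rw [add_zero, ENNReal.ofReal_one] at h2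
    exact h2
  rw [one_mul] at hlim
  rw [← hR]
  refine ge_of_tendsto hlim ?_
  filter_upwards [self_mem_nhdsWithin] with κ hκ
  rw [hR]
  exact glob_kappa ρ hρ hreg W hW hc κ hκ

end P219G
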