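import Mathlib.Analysis.Matrix.PosDef
import Vale.Agent.Lib.P219.Bd.Glob

/-!
# P219: the De Giorgi perimeter of a smooth domain is at most its classical area
-/

open scoped ContDiff
open MeasureTheory Filter Topology Set
open Vale.Agent.Lib.P219 (Ev)

namespace P219G

variable {n : ℕ}

private theorem Area_expand (a : Ev n) :
    a = ∑ i : Fin n, a.ofLp i • (EuclideanSpace.single i (1 : ℝ) : Ev n) := by
  have h := (EuclideanSpace.basisFun (Fin n) ℝ).sum_repr a
  simp only [EuclideanSpace.basisFun_repr, EuclideanSpace.basisFun_apply] at h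
  exact h.symm

/-- the bilinear form in terms of the Gram matrix -/
private theorem Area_bilin (g : Ev n → Ev n →L[ℝ] Ev n →L[ℝ] ℝ) (x a c : Ev n) :
    a.ofLp ⬝ᵥ (gram g x).mulVec c.ofLp = g x a c := by
  conv_rhs => rw [Area_expand a, Area_expand c]
  simp only [map_sum, map_smul, dotProduct, Matrix.mulVec, gram, Matrix.of_apply, sum_apply,
    smul_apply, smul_eq_mul, Finset.mul_sum]
  rw [Finset.sum_comm]
  refine Finset.sum_congr rfl fun i _ => Finset.sum_congr rfl fun j _ => ?_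
  ring

theorem gram_posDef (g : Ev n → Ev n →L[ℝ] Ev n →L[ℝ] ℝ) (hg : IsMetric g) (x : Ev n) :
    (gram g x).PosDef := by
  refine Matrix.PosDef.of_dotProduct_mulVec_pos ?_ ?_
  · ext i j
    simp only [Matrix.conjTranspose_apply, gram, Matrix.of_apply, star_trivial]
    exact hg.symm x _ _
  · intro v hv
    rw [star_trivial]
    have h := Area_bilin g x (WithLp.toLp 2 v) (WithLp.toLp 2 v)
    have h' : v ⬝ᵥ (gram g x).mulVec v = g x (WithLp.toLp 2 v) (WithLp.toLp 2 v) := h
    rw [h']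
    refine hg.pos x _ fun h0 => hv ?_
    have := congrArg WithLp.ofLp h0
    simpa using this

theorem volDens_pos (g : Ev n → Ev n →L[ℝ] Ev n →L[ℝ] ℝ) (hg : IsMetric g) (x : Ev n) :
    0 < volDens g x :=
  Real.sqrt_pos.2 (gram_posDef g hg x).det_pos

theorem volDens_contDiff (g : Ev n → Ev n →L[ℝ] Ev n →L[ℝ] ℝ) (hg : IsMetric g) :
    ContDiff ℝ ∞ (volDens g) := by
  refine ContDiff.sqrt ?_ fun x => (gram_posDef g hg x).det_pos.ne'
  have h : (fun x => (gram g x).det) = fun x => ∑ σ : Equiv.Perm (Fin n),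
      ((Equiv.Perm.sign σ : ℤ) : ℝ) * ∏ i, gram g x (σ i) i := by
    funext x
    rw [Matrix.det_apply']
  rw [h]
  refine ContDiff.sum fun σ _ => contDiff_const.mul (contDiff_prod fun i _ => ?_)
  simp only [gram, Matrix.of_apply]
  exact (hg.smooth.clm_apply contDiff_const).clm_apply contDiff_const

/-- Cauchy-Schwarz for the metric -/
private theorem Area_cs (g : Ev n → Ev n →L[ℝ] Ev n →L[ℝ] ℝ) (hg : IsMetric g) (x c v : Ev n) :
    |g x c v| ≤ Real.sqrt (g x c c) * Real.sqrt (g x v v) := by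
  have hnn : ∀ u : Ev n, 0 ≤ g x u u := by
    intro u
    by_cases hu : u = 0
    · rw [hu]; simp
    · exact (hg.pos x u hu).le
  rw [← Real.sqrt_mul (hnn c)]
  apply Real.abs_le_sqrt
  by_cases hv : v = 0
  · rw [hv]; simp
  have hvp := hg.pos x v hv
  have h1 := hnn (g x v v • c - g x c v • v)
  have h2 : g x (g x v v • c - g x c v • v) (g x v v • c - g x c v • v)
      = g x v v * (g x c c * g x v v - g x c v ^ 2) := by
    simp only [map_sub, map_smul, sub_apply, smul_apply, smul_eq_mul]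
    rw [hg.symm x v c]
    ring
  rw [h2] at h1
  have h3 := nonneg_of_mul_nonneg_right h1 hvp
  linarith

/-- Cauchy-Schwarz: `|⟪a, v⟫| ≤ |a|_{g⁻¹} |v|_g`. -/
theorem inner_le_coNorm (g : Ev n → Ev n →L[ℝ] Ev n →L[ℝ] ℝ) (hg : IsMetric g) (x a v : Ev n) :
    |inner ℝ a v| ≤ coNorm g x a * Real.sqrt (g x v v) := by
  have hdet : IsUnit (gram g x).det := (gram_posDef g hg x).det_pos.ne'.isUnit
  obtain ⟨c, hc⟩ : ∃ c : Ev n, c = WithLp.toLp 2 ((gram g x)⁻¹.mulVec a.ofLp) := ⟨_, rfl⟩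
  have hc' : (gram g x)⁻¹.mulVec a.ofLp = c.ofLp := by rw [hc]
  have hG : (gram g x).mulVec c.ofLp = a.ofLp := by
    rw [← hc', Matrix.mulVec_mulVec, Matrix.mul_nonsing_inv _ hdet, Matrix.one_mulVec]
  have h1 : inner ℝ a v = g x c v := by
    rw [hg.symm x c v, ← Area_bilin, hG, EuclideanSpace.inner_eq_star_dotProduct, star_trivial]
  have h2 : coNorm g x a = Real.sqrt (g x c c) := by
    unfold coNorm
    rw [hc', ← Area_bilin, hG, dotProduct_comm]
  rw [h1, h2]
  exact Area_cs g hg x c v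

/-- In an orthonormal frame `Li x` of `g x`, the volume density is `|det Li x|`
(`gram = Liᵀ Li`). -/
theorem volDens_eq_frame (g : Ev n → Ev n →L[ℝ] Ev n →L[ℝ] ℝ) (Li : Ev n → (Ev n →L[ℝ] Ev n))
    (h : ∀ x v w, g x v w = inner ℝ (Li x v) (Li x w)) (x : Ev n) :
    volDens g x = |(Li x).det| := by
  obtain ⟨M, hM⟩ : ∃ M : Matrix (Fin n) (Fin n) ℝ, M = LinearMap.toMatrix
    (EuclideanSpace.basisFun (Fin n) ℝ).toBasis (EuclideanSpace.basisFun (Fin n) ℝ).toBasis
    (Li x : Ev n →ₗ[ℝ] Ev n) := ⟨_, rfl⟩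
  have h1 : (Li x).det = M.det := by
    rw [hM, LinearMap.det_toMatrix]
  have h2 : ∀ i j, M i j = (Li x (EuclideanSpace.single j 1)).ofLp i := by
    intro i j
    rw [hM, LinearMap.toMatrix_apply]
    simp
  have h3 : gram g x = M.transpose * M := by
    ext i j
    simp only [gram, Matrix.of_apply, Matrix.mul_apply, Matrix.transpose_apply, h2]
    rw [h, EuclideanSpace.inner_eq_star_dotProduct, star_trivial, dotProduct]
    exact Finset.sum_congr rfl fun k _ => mul_comm _ _
  unfold volDens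
  rw [h3, Matrix.det_mul, Matrix.det_transpose, h1, Real.sqrt_mul_self_eq_abs]

/-- The perimeter of a smooth domain is at most its area: apply `div_le` to the compactly supported
`C^1` field `W = √det g • X`; on `{ρ = 0}`,
`|Dρ(W)|/‖Dρ‖ = volDens |⟪unitNormal, X⟫| ≤ volDens coNorm(unitNormal) √(g(X,X))`. -/
theorem perimeter_le_area (g : Ev n → Ev n →L[ℝ] Ev n →L[ℝ] ℝ) (hg : IsMetric g)
    (ρ : Ev n → ℝ) (hρ : IsDefiningFunction ρ) (X : Ev n → Ev n) (hX : ContDiff ℝ 1 X)
    (hc : HasCompactSupport X) (hX1 : ∀ x, g x (X x) (X x) ≤ 1) :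
    ENNReal.ofReal (∫ x in {x | ρ x < 0}, dv (fun y => volDens g y • X y) x) ≤ area g ρ := by
  have hv1 : ContDiff ℝ 1 (volDens g) := (volDens_contDiff g hg).of_le (by exact_mod_cast le_top)
  have hρ1 : ContDiff ℝ 1 ρ := hρ.smooth.of_le (by exact_mod_cast le_top)
  refine (div_le ρ hρ1 hρ.regular (fun y => volDens g y • X y) (hv1.smul hX)
    (hc.smul_left (f := volDens g))).trans ?_
  unfold area
  refine lintegral_mono fun x => ENNReal.ofReal_le_ofReal ?_
  have hvp := volDens_pos g hg x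
  have hgn : ‖fderiv ℝ ρ x‖ = ‖gradient ρ x‖ := by
    unfold gradient
    rw [LinearIsometryEquiv.norm_map]
  have h1 : fderiv ℝ ρ x (volDens g x • X x) = volDens g x * inner ℝ (gradient ρ x) (X x) := by
    rw [map_smul, inner_gradient_left, smul_eq_mul]
  have h2 : |fderiv ℝ ρ x (volDens g x • X x)| / ‖fderiv ℝ ρ x‖
      = volDens g x * |inner ℝ (unitNormal ρ x) (X x)| := by
    rw [h1, hgn, abs_mul, abs_of_pos hvp]
    unfold unitNormal
    rw [real_inner_smul_left, abs_mul, abs_inv, abs_norm]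
    ring
  show |fderiv ℝ ρ x (volDens g x • X x)| / ‖fderiv ℝ ρ x‖
    ≤ volDens g x * coNorm g x (unitNormal ρ x)
  rw [h2]
  refine mul_le_mul_of_nonneg_left ?_ hvp.le
  refine (inner_le_coNorm g hg x _ _).trans ?_
  have h3 : Real.sqrt (g x (X x) (X x)) ≤ 1 := Real.sqrt_le_one.2 (hX1 x)
  have h4 : 0 ≤ coNorm g x (unitNormal ρ x) := Real.sqrt_nonneg _
  nlinarith

end P219G
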