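import Vale.Agent.Lib.P219.MetricDefs
import Vale.Agent.Lib.P219.Bd.Area

/-!
# P219: comparison of the De Giorgi perimeter of Part A with the classical area
-/

open scoped ContDiff
open MeasureTheory Filter Topology Set
open Vale.Agent.Lib.P219 (Ev)

namespace P219G

variable {n : ℕ}

private theorem sqdet_eq_volDens (g : Ev n → Ev n →L[ℝ] Ev n →L[ℝ] ℝ) :
    Vale.Agent.Lib.P219.sqdet g = volDens g := rfl

/-- `per g {ρ < 0} ≤ area g ρ` (supremum over the fields `X`; the integral of `gdiv g X` against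
`gvol g` over `Ω` is the Lebesgue integral of `dv (√det g • X)`; `perimeter_le_area`). -/
theorem per_le_area (g : Ev n → Ev n →L[ℝ] Ev n →L[ℝ] ℝ) (hg : IsMetric g)
    (ρ : Ev n → ℝ) (hρ : IsDefiningFunction ρ) :
    Vale.Agent.Lib.P219.per g {x | ρ x < 0} ≤ area g ρ := by
  unfold Vale.Agent.Lib.P219.per
  refine iSup_le (fun X => iSup_le (fun hX => ?_))
  obtain ⟨h1, h2, h3⟩ := hX
  refine le_trans (le_of_eq ?_) (perimeter_le_area g hg ρ hρ X h1 h2 h3)
  congr 1
  have hcont : Continuous (volDens g) := (volDens_contDiff g hg).continuous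
  have hms : MeasurableSet {x | ρ x < 0} :=
    (isOpen_lt hρ.smooth.continuous continuous_const).measurableSet
  unfold Vale.Agent.Lib.P219.gvol
  rw [sqdet_eq_volDens]
  have hm : Measurable (fun x => ENNReal.ofReal (volDens g x)) :=
    (ENNReal.continuous_ofReal.comp hcont).measurable
  rw [setIntegral_withDensity_eq_setIntegral_toReal_smul hm
    (Filter.Eventually.of_forall (fun x => ENNReal.ofReal_lt_top)) _ hms]
  apply integral_congr_ae
  refine Filter.Eventually.of_forall (fun x => ?_)
  have hpos := volDens_pos g hg x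
  simp only [ENNReal.toReal_ofReal hpos.le, smul_eq_mul]
  unfold Vale.Agent.Lib.P219.gdiv dv
  rw [sqdet_eq_volDens, ← mul_assoc, mul_inv_cancel₀ hpos.ne', one_mul]
  apply Finset.sum_congr rfl
  intro i _
  have hd : DifferentiableAt ℝ (fun y => volDens g y • X y) x :=
    (((volDens_contDiff g hg).differentiable (by simp)) x).smul
      ((h1.differentiable (by norm_num)) x)
  have h4 := (EuclideanSpace.proj (𝕜 := ℝ) i : Ev n →L[ℝ] ℝ).hasFDerivAt.comp x hd.hasFDerivAt
  have h5 : (fun y => volDens g y * X y i)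
      = (EuclideanSpace.proj (𝕜 := ℝ) i : Ev n →L[ℝ] ℝ) ∘ (fun y => volDens g y • X y) := by
    funext y
    simp
  rw [h5, h4.fderiv]
  simp

/-- The two definitions of the volume measure agree. -/
theorem gvol_eq_riemVol (g : Ev n → Ev n →L[ℝ] Ev n →L[ℝ] ℝ) :
    Vale.Agent.Lib.P219.gvol g = riemVol g := rfl

end P219G
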